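import Vale.Agent.P092.H34.X.HmiG
import Vale.Agent.P092.H411.S2.Ty

/-!
P092 (helper34), Teams P, stages 2 and 3, [CL-POS], all amplifications: the middle types carry no
mass along the two walls of the group of a form, for the honest family (masses `mX`), source group
`φ : FormGroup σ (hyp (s + 2) ε J₀) →* E`, target any form of Witt index at most `s + 2`.
-/

set_option linter.all false

open scoped InnerProductSpace ENNReal
open Matrix Filter Topology Module ContinuousLinearMap MeasureTheory TopologicalSpace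

namespace Vale.Agent.P092.H34.HMK

open Vale.Agent.P092.SR Vale.Agent.P092.H160
open Vale.Agent.P092.RC (PicF Moore)
open Vale.Agent.P092.H538 (ind)
open Vale.Agent.P092.H933 (LocK)
open Vale.Agent.P092.H21 (Hon mT WT)
open Vale.Agent.P092.SNT (TVEF)
open Vale.Agent.P092.H15 (HMG)
open Vale.Agent.P092.H303 (Idx hyp FormGroup)
open Vale.Agent.P092.H714.Cl (Frm)
open Vale.Agent.P092.H370.Po (Sing)
open Vale.Agent.P092.H632.T2 (ZC g1 g1' gr gr' nmC)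
open Vale.Agent.P092.H411.S2 (tF tF_inv lb lv comm_w1 comm_wr continuous_lb continuous_lv stc_ch
  ty_w1 ty_wr ty_two)

section fam

variable {E : Type} [Group E] [TopologicalSpace E] [IsTopologicalGroup E] [LocallyCompactSpace E]
  [SecondCountableTopology E] [T2Space E] [MeasurableSpace E] [BorelSpace E]
  {Γ : Subgroup E} [DiscreteTopology Γ] [Countable Γ] [MeasurableSpace (E ⧸ Γ)]
  [BorelSpace (E ⧸ Γ)] {ν : Measure (E ⧸ Γ)} [IsProbabilityMeasure ν]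
  (hν : ∀ g : E, ν.map (fun x => g • x) = ν)
  {κ κ' ℋ : Type} [Fintype κ] [Fintype κ'] [NormedAddCommGroup ℋ] [InnerProductSpace ℂ ℋ]
  [CompleteSpace ℋ] {V R₁ R₂ : Γ →* (ℋ →L[ℂ] ℋ)} {ξ : κ → ℋ} {ξ' : κ' → ℋ}
  (hT : Tri V R₁ R₂ ξ) (hh : Hon R₁ R₂ ξ) (hT' : Tri R₁ V R₂ ξ')
  (hΓ : ∀ g : Γ, g ≠ 1 → Set.Infinite {y : Γ | ∃ h, y = h * g * h⁻¹})
  {κ₀ : Type} [Fintype κ₀] {Ω : κ₀ → Lp ℋ 2 (H85.cdat ν hν).μ}
  (pic : PicF (H34.Ind.pi (H85.cdat ν hν) (V := V) hT.adjV) (H34.Ind.lam (H85.cdat ν hν) R₁)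
    (WT (H85.cdat ν hν) R₂) Ω)
  (htv : TVEF (H34.Ind.pi (H85.cdat ν hν) (V := V) hT.adjV) (H34.Ind.lam (H85.cdat ν hν) R₁)
    (WT (H85.cdat ν hν) R₂) Ω)
  {ι : Type} [Fintype ι] [DecidableEq ι] {k : Type} [NontriviallyNormedField k]
  [ProperSpace k] {σ : k →+* k} {ε : k} {J₀ : Matrix ι ι k} {s : ℕ}
  {φ : FormGroup σ (hyp (s + 2) ε J₀) →* E}
  {k' : Type} [NontriviallyNormedField k'] [ProperSpace k'] {n : Type} [Fintype n] [DecidableEq n]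
  {σ' : k' →+* k'} {ε' : k'} {J : Matrix n n k'} {N : ℕ} (e : n ≃ Fin (N + 1))

include hh hT' hΓ pic htv e

/-- **[CL-POS], all `t`**: no mass on the middle types along `(φ b1)⁻¹` and `(φ b2)⁻¹`. -/
theorem tyT_frm (hk : LocK k) (hσc : Continuous σ) (hσ : ∀ x, σ (σ x) = x) (hε : ε * ε = 1)
    (hσε : σ ε = ε) (hcc : ∃ c : k, c ≠ 0 ∧ c + ε * σ c = 0) (hφ : Continuous φ)
    (hp : ∀ C : Set E, IsCompact C → ∃ C' : Set (FormGroup σ (hyp (s + 2) ε J₀)),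
      IsCompact C' ∧ φ ⁻¹' C ⊆ C')
    {w : k} (hw : w ≠ 0) (hw1 : ‖w‖ < 1) (hσw : σ w = w) {l : Fin (s + 2) → ℤ}
    (hl : l = Pi.single 0 1 ∨ l = fun _ => 1) (hG : HMG (FormGroup σ (hyp (s + 2) ε J₀)))
    (hS : 1 ≤ s → H933.HoweMoore (FormGroup σ (hyp (s + 1) ε J₀)))
    (hk' : LocK k') (hF : Frm σ' ε' J) (hσ' : ∀ x, ‖σ' x‖ = ‖x‖) (h2r : 2 * (s + 2) ≤ N + 1)
    (hW : ∀ Y, Sing σ' J Y → finrank k' Y ≤ s + 2)
    {q : Γ → FormGroup σ' J} (hph : ∀ γ γ', ∃ z ∈ ZC σ' J, q (γ * γ') = z * (q γ * q γ'))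
    (disc : ∀ C : ℝ, {γ : Γ | nmC e (q γ) ≤ C}.Finite) (δ : ℝ) (hδ : 0 < δ) :
    ∃ ρ : ℝ, ∀ᶠ M : ℕ in atTop, mX hν hT ((φ (tF σ ε J₀ (s + 2) hw hσw l))⁻¹ ^ M)
      (ind fun γ => γ ∈ {γ | ρ < g1' e (q γ) ∧ ρ < gr' e (s + 2) (q γ)}) ≤ δ := by
  classical
  have hd := sharp_mX hν hT hT' hΓ
  have hε' : ε * σ ε = 1 := by rw [hσε, hε]
  rcases s with _ | s
  · obtain ⟨ρ, hρ⟩ := ty_two e hd (stc_ch hσc hσ hε hcc hφ hp hw hw1 hσw hl).2 hk' hF hσ' h2r hW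
      hph disc hδ
    exact ⟨ρ, Eventually.of_forall hρ⟩
  · rcases hl with rfl | rfl
    · have e1 : (φ (tF σ ε J₀ (s + 3) hw hσw (Pi.single 0 1)))⁻¹ =
          φ (tF σ ε J₀ (s + 3) hw hσw (Pi.single 0 (-1))) := by
        rw [← map_inv, tF_inv, ← Pi.single_neg]
      rw [e1]
      refine ty_w1 e hd hσc hσ hε hσε hφ hp hw hw1 hσw (Or.inr rfl) hk' hF hσ' h2r hW hph disc
        (fun {J} _ _ {R} {gap} {cl} {A} {i₀} hg hTs => ?_) hδ
      refine hmiT_tor hν hT hh hT' hΓ pic htv hφ continuous_lb (hS (by omega)) hG hσc hσ hε'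
        (by omega) hw hw1.ne hσw (l := Pi.single 0 (-1)) ?_
        (fun x => (comm_w1 (s + 2) hw hσw (-1) x).symm) hg hTs
      intro h0
      have h1 := congrFun h0 0
      rw [Pi.single_eq_same] at h1
      exact absurd h1 (by norm_num)
    · have e1 : (φ (tF σ ε J₀ (s + 3) hw hσw fun _ => 1))⁻¹ =
          φ (tF σ ε J₀ (s + 3) hw hσw fun _ => -1) := by
        rw [← map_inv, tF_inv]
        rfl
      rw [e1]
      refine ty_wr e hd hσc hσ hε hσε hφ hp hw hw1 hσw (Or.inr rfl) hk' hF hσ' h2r hW hph disc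
        (fun {J} _ _ {R} {gap} {cl} {A} {i₀} hg hTs => ?_) hδ
      refine hmiT_tor hν hT hh hT' hΓ pic htv hφ (continuous_lv hσc hσ) (H933.hm_sl hk (by omega))
        hG hσc hσ hε' (by omega) hw hw1.ne hσw (l := fun _ => -1) ?_
        (fun x => (comm_wr hσ (s + 3) hw hσw (-1) x).symm) hg hTs
      intro h0
      exact absurd (congrFun h0 0) (by norm_num)

end fam

end Vale.Agent.P092.H34.HMK
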