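import Vale.Agent.P092.H34.X.PosT
import Vale.Agent.P092.H458.T.HalfE
import Vale.Agent.P092.H962.C.PicT
import Vale.Agent.P092.H859.TgN

/-!
P092 (helper34), Team N, [N-GAPB], all amplifications: the positions on the model
`L²(E/Γ; HH(α, α, α))` for every honest family, any admissible source group `E`, one factor.
-/

set_option linter.all false

open scoped InnerProductSpace ENNReal
open Filter Topology ContinuousLinearMap MeasureTheory TopologicalSpace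

namespace Vale.Agent.P092.H34.HMK

open Vale.Agent.P092.SR Vale.Agent.P092.H160 Vale.Agent.P092.H103 Vale.Agent.P092.H962
open Vale.Agent.P092.RC (PicF Moore GG PG ct adjV3)
open Vale.Agent.P092.SN (nm PH bw)
open Vale.Agent.P092.H35 (sp)
open Vale.Agent.P092.H933 (LocK)
open Vale.Agent.P092.H337.NG (G2)
open Vale.Agent.P092.H859.TgN (g2)
open Vale.Agent.P092.H21 (Hon mT WT)
open Vale.Agent.P092.SNT (TVEF tv_tri)

section pre

theorem g2_sub {k : Type} [NontriviallyNormedField k] {N : ℕ} {Γ : Type} (q : Γ → GG k N)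
    (r : ℝ) : {γ : Γ | max r 0 < g2 q (fun _ => 0) γ ∧
      max r 0 < g2 (fun γ => ct (q γ)) (fun _ => 0) γ} ⊆
      {γ | r < G2 (q γ) ∧ r < G2 (ct (q γ))} := by
  rintro γ ⟨h1, h2⟩
  have h3 : ∀ x : ℝ, max r 0 < max x 0 → r < x := fun x hx => by
    rcases le_total x 0 with h | h
    · rw [max_eq_right h] at hx
      exact absurd (le_max_right r 0) (not_le.2 hx)
    · rw [max_eq_left h] at hx
      exact (le_max_left r 0).trans_lt hx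
  exact ⟨h3 _ h1, h3 _ h2⟩

theorem st_mono {Γ K : Type} [NormedAddCommGroup K] [InnerProductSpace ℂ K] [CompleteSpace K]
    {m : Set Γ → (K →L[ℂ] K)} (hP : H859.CL.Prj m) {S T : Set Γ} (h : S ⊆ T) (v : K) :
    ‖m S v‖ ≤ ‖m T v‖ := by
  rw [← Set.inter_eq_left.2 h, hP.inter]
  exact hP.norm_le _ _

end pre

section gen

variable {k : Type} [NontriviallyNormedField k] [ProperSpace k] {N : ℕ}
  {E : Type} [Group E] [TopologicalSpace E] [IsTopologicalGroup E] [LocallyCompactSpace E]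
  [SecondCountableTopology E] [T2Space E] [MeasurableSpace E] [BorelSpace E]
  {Γ : Subgroup E} [DiscreteTopology Γ] [Countable Γ] [MeasurableSpace (E ⧸ Γ)]
  [BorelSpace (E ⧸ Γ)] {ν : Measure (E ⧸ Γ)} [IsProbabilityMeasure ν]
  (hν : ∀ g : E, ν.map (fun x => g • x) = ν)
  {κ κ' ℋ : Type} [Fintype κ] [Fintype κ'] [NormedAddCommGroup ℋ] [InnerProductSpace ℂ ℋ]
  [CompleteSpace ℋ] {V R₁ R₂ : Γ →* (ℋ →L[ℂ] ℋ)} {ξ : κ → ℋ} {ξ' : κ' → ℋ}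
  (hT : Tri V R₁ R₂ ξ) (hh : Hon R₁ R₂ ξ) (hT' : Tri R₁ V R₂ ξ')
  (hΓ : ∀ g : Γ, g ≠ 1 → Set.Infinite {y : Γ | ∃ h, y = h * g * h⁻¹})
  {κ₀ : Type} [Fintype κ₀] {Ω : κ₀ → Lp ℋ 2 (H85.cdat ν hν).μ}
  (pic : PicF (H34.Ind.pi (H85.cdat ν hν) (V := V) hT.adjV) (H34.Ind.lam (H85.cdat ν hν) R₁)
    (WT (H85.cdat ν hν) R₂) Ω)
  (htv : TVEF (H34.Ind.pi (H85.cdat ν hν) (V := V) hT.adjV) (H34.Ind.lam (H85.cdat ν hν) R₁)
    (WT (H85.cdat ν hν) R₂) Ω)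

include hh hT' hΓ pic htv in
/-- the positions in the letters of `H859.TgN` -/
theorem posT_g2 (hk : LocK k) (hN : 2 ≤ N) {ι : GG k N →* E} (hι : Continuous ι)
    {a : E →* PG k (N + 1)} (ha : Continuous a) (hcomp : ∀ g, a (ι g) = sp k (N + 1) g) {w : kˣ}
    (hw : ‖(w : k)‖ < 1) {q : Γ → GG k N} (hq : PH q)
    (hf : ∀ C : ℝ, {γ : Γ | nm (q γ) ≤ C}.Finite) {b : E}
    (hb : b = ι (bw w) ∨ b = (ι (bw w))⁻¹) (c : ℂ) (i : κ) {ε : ℝ} (hε : 0 < ε) :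
    ∃ r : ℝ, ∀ᶠ n : ℕ in atTop, ‖H859.CL.st (mT (H85.cdat ν hν) hT)
      {γ | r < g2 q (fun _ => 0) γ ∧ r < g2 (fun γ => ct (q γ)) (fun _ => 0) γ}
      (H34.Ind.pi (H85.cdat ν hν) (V := V) hT.adjV (b ^ n)
        (Lp.const 2 (H85.cdat ν hν).μ (c • ξ i)))‖ ≤ ε := by
  obtain ⟨m, rfl⟩ : ∃ m, N = m + 1 := ⟨N - 1, by omega⟩
  obtain ⟨r, hr⟩ := posT_vec hν hT hh hT' hΓ pic htv hk (by omega) hι ha hcomp hw hq hf hb c i hε
  exact ⟨max r 0, hr.mono fun n hn =>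
    (st_mono (H21.fn_T (H85.cdat ν hν) hT hh).prj (g2_sub q r) _).trans hn⟩

end gen

section hh

variable {E : Type} [Group E] [TopologicalSpace E] [IsTopologicalGroup E] [LocallyCompactSpace E]
  [SecondCountableTopology E] [T2Space E] [NoncompactSpace E] [MeasurableSpace E] [BorelSpace E]
  {Γ : Subgroup E} [DiscreteTopology Γ] [Countable Γ] [MeasurableSpace (E ⧸ Γ)]
  [BorelSpace (E ⧸ Γ)] {ν : Measure (E ⧸ Γ)} [IsProbabilityMeasure ν]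
  (hν : ∀ g : E, ν.map (fun x => g • x) = ν)
  (hΓ : ∀ g : Γ, g ≠ 1 → Set.Infinite {y : Γ | ∃ h, y = h * g * h⁻¹})
  {Λ : Type} [Group Λ] [Countable Λ]
  (hΛ : ∀ s : Λ, s ≠ 1 → Set.Infinite {y : Λ | ∃ h, y = h * s * h⁻¹})
  {I : Type} [Fintype I] {α : Γ → (Ell2 (I × Λ) →L[ℂ] Ell2 (I × Λ))} (hα : AF α)
  {κ : Type} [Fintype κ] {ξ : κ → HH (PT α α α)}
  (hT : Tri (V3 hα hα hα) (A3R hα hα hα) (B3R hα hα hα) ξ)

include hΓ hΛ in
theorem picE_HH : PicF (H34.Ind.pi (H85.cdat ν hν) (V := V3 hα hα hα) hT.adjV)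
    (H34.Ind.lam (H85.cdat ν hν) (A3R hα hα hα)) (WT (H85.cdat ν hν) (B3R hα hα hα))
    (AmpE.nrm hν ξ) :=
  (RC.pic2F_HH hν hα hα hα hΓ hΛ (adjV3 hα) hT).leg₁

theorem tvE_HH : TVEF (H34.Ind.pi (H85.cdat ν hν) (V := V3 hα hα hα) hT.adjV)
    (H34.Ind.lam (H85.cdat ν hν) (A3R hα hα hα)) (WT (H85.cdat ν hν) (B3R hα hα hα))
    (AmpE.nrm hν ξ) := by
  obtain ⟨B, b, hB⟩ := H421.HsT.exists_basisHH (P := PT α α α)
  exact tv_tri hν (adjV3 hα) b hT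

include hΓ hΛ in
/-- **[N-GAPB], all amplifications, one factor.** -/
theorem pos_HH (hh : Hon (A3R hα hα hα) (B3R hα hα hα) ξ) {k : Type} [NontriviallyNormedField k]
    [ProperSpace k] (hk : LocK k) {N : ℕ} (hN : 2 ≤ N) {ι : GG k N →* E} (hι : Continuous ι)
    {a : E →* PG k (N + 1)} (ha : Continuous a) (hcomp : ∀ g, a (ι g) = sp k (N + 1) g) {w : kˣ}
    (hw : ‖(w : k)‖ < 1) {q : Γ → GG k N} (hq : PH q)
    (hf : ∀ C : ℝ, {γ : Γ | nm (q γ) ≤ C}.Finite) {b : E}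
    (hb : b = ι (bw w) ∨ b = (ι (bw w))⁻¹) (i : κ) {ε : ℝ} (hε : 0 < ε) :
    ∃ r : ℝ, ∀ᶠ n : ℕ in atTop, ‖H859.CL.st (mT (H85.cdat ν hν) hT)
      {γ | r < g2 q (fun _ => 0) γ ∧ r < g2 (fun γ => ct (q γ)) (fun _ => 0) γ}
      (H34.Ind.pi (H85.cdat ν hν) (V := V3 hα hα hα) hT.adjV (b ^ n) (AmpE.nrm hν ξ i))‖ ≤ ε := by
  have h := exists_tri' hα hα hα hΛ
  exact Exists.elim h fun m' h => Exists.elim h fun m'' h => Exists.elim h fun ζ h' =>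
    posT_g2 hν hT hh h' hΓ (picE_HH hν hΓ hΛ hα hT) (tvE_HH hν hα hT) hk hN hι ha hcomp hw hq hf hb
      ((((Real.sqrt (∑ j, ‖ξ j‖ ^ 2))⁻¹ : ℝ) : ℂ)) i hε

end hh

end Vale.Agent.P092.H34.HMK
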