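import Vale.Agent.P092.H34.X.HmiT
import Vale.Agent.P092.H387.Hp
import Vale.Agent.P092.H618.Hmi

/-!
P092 (helper34, from helper618's Hmi and helper387's Hp), Team N, [N-GAPB], all amplifications: the
positions (tightness of `both gauges large`) for the honest family, any admissible source group.
-/

set_option linter.all false

open scoped InnerProductSpace ENNReal
open Filter Topology ContinuousLinearMap MeasureTheory TopologicalSpace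

namespace Vale.Agent.P092.H34.HMK

open Vale.Agent.P092.SR Vale.Agent.P092.H160
open Vale.Agent.P092.RC (PicF Moore GG PG ct)
open Vale.Agent.P092.SN (nm PH bw)
open Vale.Agent.P092.H35 (sp)
open Vale.Agent.P092.H933 (LocK)
open Vale.Agent.P092.H337.NG (G2)
open Vale.Agent.P092.H534.GK (Crt)
open Vale.Agent.P092.H221.GapsC (lg)
open Vale.Agent.P092.H761 (SharpData GChain big mem_big Geo Gaps)
open Vale.Agent.P092.H538 (ind)
open Vale.Agent.P092.H218.NR (HMIA)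
open Vale.Agent.P092.H387.Hp (hGH_of)
open Vale.Agent.P092.H21 (Hon mT WT)
open Vale.Agent.P092.SNT (TVEF)
open Vale.Agent.P092.H411.Blk (blk continuous_blk)
open Vale.Agent.P092.H411.ChS (sg sg_cont)
open Vale.Agent.P092.H307.Gb (con_ctr nrm_ctr moore_ctr_sl moore_ctr_sl_inv bw_comm_blk)
open Vale.Agent.P092.H618.HMK (Tests)
open Vale.Agent.P092.H618.Hmi (tests_crt)

/-! ### The abstract composition -/

section abs

variable {k : Type} [NontriviallyNormedField k] [ProperSpace k] {m : ℕ}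
  {E : Type} [Group E] [TopologicalSpace E] [IsTopologicalGroup E] [MeasurableSpace E]
  [BorelSpace E] {Γ : Type} [Group Γ] [DecidableEq Γ] {t : ℝ} {mass : E → (Γ → ℝ) → ℝ}
  {ι : GG k (m + 1) →* E} {a : E →* PG k (m + 2)}

/-- **The positions, one factor**, any masses with `SharpData`, from `HMIA`. -/
theorem pos_abs (hd : SharpData t mass (fun K : Set E => IsCompact K) (H261.PingT E))
    (hk : LocK k) (hm : 0 < m) (hι : Continuous ι) (ha : Continuous a)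
    (hcomp : ∀ g, a (ι g) = sp k (m + 2) g) {w : kˣ} (hw : ‖(w : k)‖ < 1)
    {q : Γ → GG k (m + 1)} (hq : PH q) (hf : ∀ C : ℝ, {γ : Γ | nm (q γ) ≤ C}.Finite)
    (hHM : ∀ {gap : Fin (m + 1) → Γ → ℝ} {c C : ℝ}, 0 < c →
      (∀ g, ∃ a U U' V V', Crt (q g).1 a U U' V V' ∧
        ∀ i : Fin (m + 1), |gap i g - c * lg a i| ≤ C) → Gaps gap id → ∀ i₀ : Fin (m + 1),
      0 < (i₀ : ℕ) → (i₀ : ℕ) + 1 < m + 1 →
      HMIA mass gap id Finset.univ i₀ (fun n => ι (bw w) ^ n) (sg ι) (cocompact (GG k m)) ∧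
        HMIA mass gap id Finset.univ i₀ (fun n => (ι (bw w))⁻¹ ^ n) (sg ι)
          (cocompact (GG k m))) :
    (∀ ε : ℝ, 0 < ε → ∃ ρ : ℝ, ∀ᶠ N : ℕ in atTop, mass (ι (bw w) ^ N)
      (ind fun γ => ρ < G2 (q γ) ∧ ρ < G2 (ct (q γ))) ≤ ε) ∧
    (∀ ε : ℝ, 0 < ε → ∃ ρ : ℝ, ∀ᶠ N : ℕ in atTop, mass ((ι (bw w))⁻¹ ^ N)
      (ind fun γ => ρ < G2 (q γ) ∧ ρ < G2 (ct (q γ))) ≤ ε) := by
  obtain ⟨gap, W, c, C, hc, hs, hW, hcrt⟩ := H221.GapsC.gsys_crt2_ph (n := m + 2) hk (by omega) q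
    (fun γ γ' => hq γ γ')
  have hfin : ∀ R : ℝ, {γ | W γ ≤ R}.Finite := fun R => by
    obtain ⟨R', hR'⟩ := hW R
    exact (hf (max R' 0)).subset fun γ hγ => H776.NG.nmx_le (le_max_right _ _) fun i j =>
      (hR' γ hγ i j).trans (le_max_left _ _)
  have hg : Gaps (r := m + 1) (fun i : Fin (m + 1) => gap i) (id : Fin (m + 1) → Fin (m + 1)) :=
    hs.gaps hfin (fun i : Fin (m + 1) => i) fun R => ⟨R, fun i j hij g h => by
      have : i = j := hij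
      rw [← this]; exact h⟩
  have key : ∀ (z : E) (b : Fin (m + 1) → ℕ → E) (𝒦 : Fin (m + 1) → Set E),
      GChain (fun K : Set E => IsCompact K) (H261.PingT E) (m + 1) b 𝒦 →
      (∀ M, b 0 M = z ^ M) → (∀ j M, sg ι (H411.ChS.bS w j M) = b j.succ M) →
      (∀ j, sg ι '' H411.ChS.KS k j = 𝒦 j.succ) → (∀ N s, z ^ N * sg ι s = sg ι s * z ^ N) →
      (∀ i₀ : Fin (m + 1), 0 < (i₀ : ℕ) → (i₀ : ℕ) + 1 < m + 1 →
        HMIA mass (fun i : Fin (m + 1) => gap i) id Finset.univ i₀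
          (fun n => z ^ n) (sg ι) (cocompact (GG k m))) →
      ∀ ε : ℝ, 0 < ε → ∃ ρ : ℝ, ∀ᶠ N : ℕ in atTop, mass (z ^ N)
        (ind fun γ => ρ < G2 (q γ) ∧ ρ < G2 (ct (q γ))) ≤ ε := by
    intro z b 𝒦 hch hb0 hbS hK hcomm hH ε hε
    have hb0' : b 0 = fun n => z ^ n := funext hb0
    obtain ⟨ρ, hρ⟩ := H218.NR.pos_final (r := m + 1) (cl := (id : Fin (m + 1) → Fin (m + 1)))
      (A := Finset.univ) (b := b) (𝒦 := 𝒦) (bS := H411.ChS.bS w) (𝒦S := H411.ChS.KS k)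
      (σ := sg ι) (gap := fun i : Fin (m + 1) => gap i) hd hg
      (fun θ _ _ => hs.geo' hfin θ) hch hm (by rw [Finset.card_univ, Fintype.card_fin])
      (H218.NR.hA_univ hd) (fun N s => by rw [hb0]; exact hcomm N s)
      (H411.ChS.sg_inj hcomp) hbS hK (H218.NR.hcc_of (sg_cont hι))
      (H411.ChS.bS_tendsto hw hm)
      (Mid := fun i : Fin (m + 1) => 0 < (i : ℕ) ∧ (i : ℕ) + 1 < m + 1)
      (fun i₀ h => by rw [hb0']; exact hH i₀ h.1 h.2)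
      (G2 := fun γ => G2 (q γ)) (H2 := fun γ => G2 (ct (q γ)))
      (fun R => hGH_of q hc hcrt R) hε
    exact ⟨ρ, hρ.mono fun n hn => by rw [hb0] at hn; exact hn⟩
  refine ⟨?_, ?_⟩
  · obtain ⟨b, 𝒦, h1, h2, h3, h4⟩ := H411.ChS.exists_chain hι ha hcomp hw
    exact key _ b 𝒦 h1 h2 h3 h4 (fun N s => H411.ChS.sg_comm_pow w N s)
      fun i₀ a1 a2 => (hHM hc hcrt hg i₀ a1 a2).1
  · obtain ⟨b, 𝒦, h1, h2, h3, h4⟩ := H411.ChS.exists_chain_inv hι ha hcomp hw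
    exact key _ b 𝒦 h1 h2 h3 h4 (fun N s => H411.ChS.sg_comm_inv_pow w N s)
      fun i₀ a1 a2 => (hHM hc hcrt hg i₀ a1 a2).2

end abs

/-! ### The honest family -/

section fam

variable {k : Type} [NontriviallyNormedField k] [ProperSpace k] {m : ℕ}
  {E : Type} [Group E] [TopologicalSpace E] [IsTopologicalGroup E] [LocallyCompactSpace E]
  [SecondCountableTopology E] [T2Space E] [MeasurableSpace E] [BorelSpace E]
  {Γ : Subgroup E} [DiscreteTopology Γ] [Countable Γ] [MeasurableSpace (E ⧸ Γ)]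
  [BorelSpace (E ⧸ Γ)] {ν : Measure (E ⧸ Γ)} [IsProbabilityMeasure ν]
  (hν : ∀ g : E, ν.map (fun x => g • x) = ν)
  {κ κ' ℋ : Type} [Fintype κ] [Fintype κ'] [NormedAddCommGroup ℋ] [InnerProductSpace ℂ ℋ]
  [CompleteSpace ℋ] {V R₁ R₂ : Γ →* (ℋ →L[ℂ] ℋ)} {ξ : κ → ℋ} {ξ' : κ' → ℋ}
  (hT : Tri V R₁ R₂ ξ) (hh : Hon R₁ R₂ ξ) (hT' : Tri R₁ V R₂ ξ')
  (hΓ : ∀ g : Γ, g ≠ 1 → Set.Infinite {y : Γ | ∃ h, y = h * g * h⁻¹})
  {κ₀ : Type} [Fintype κ₀] {Ω : κ₀ → Lp ℋ 2 (H85.cdat ν hν).μ}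
  (pic : PicF (H34.Ind.pi (H85.cdat ν hν) (V := V) hT.adjV) (H34.Ind.lam (H85.cdat ν hν) R₁)
    (WT (H85.cdat ν hν) R₂) Ω)
  (htv : TVEF (H34.Ind.pi (H85.cdat ν hν) (V := V) hT.adjV) (H34.Ind.lam (H85.cdat ν hν) R₁)
    (WT (H85.cdat ν hν) R₂) Ω)
  {ι : GG k (m + 1) →* E}

include hh hT' hΓ pic htv

/-- **The positions for the honest family, one factor**: masses. -/
theorem posT_mX (hk : LocK k) (hm : 0 < m) (hι : Continuous ι) {a : E →* PG k (m + 2)}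
    (ha : Continuous a) (hcomp : ∀ g, a (ι g) = sp k (m + 2) g) {w : kˣ} (hw : ‖(w : k)‖ < 1)
    {q : Γ → GG k (m + 1)} (hq : PH q) (hf : ∀ C : ℝ, {γ : Γ | nm (q γ) ≤ C}.Finite) :
    (∀ ε : ℝ, 0 < ε → ∃ ρ : ℝ, ∀ᶠ N : ℕ in atTop, mX hν hT (ι (bw w) ^ N)
      (ind fun γ => ρ < G2 (q γ) ∧ ρ < G2 (ct (q γ))) ≤ ε) ∧
    (∀ ε : ℝ, 0 < ε → ∃ ρ : ℝ, ∀ᶠ N : ℕ in atTop, mX hν hT ((ι (bw w))⁻¹ ^ N)
      (ind fun γ => ρ < G2 (q γ) ∧ ρ < G2 (ct (q γ))) ≤ ε) := by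
  classical
  refine pos_abs (sharp_mX hν hT hT' hΓ) hk hm hι ha hcomp hw hq hf ?_
  intro gap c C hc hcrt hg i₀ h0 h1
  exact ⟨hmiT_A hν hT hh hT' hΓ pic htv hk (by omega) hι hw hg (tests_crt hq hc hcrt i₀ h0 h1),
    hmiT_inv hν hT hh hT' hΓ pic htv hk (by omega) hι hw hg (tests_crt hq hc hcrt i₀ h0 h1)⟩

omit pic htv in
/-- from masses to vectors -/
theorem vec_of_mX {b : E} {S : ℝ → Set Γ}
    (h : ∀ ε : ℝ, 0 < ε → ∃ ρ : ℝ, ∀ᶠ N : ℕ in atTop, mX hν hT (b ^ N)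
      (ind fun γ => γ ∈ S ρ) ≤ ε) (c : ℂ) (i : κ) {ε : ℝ} (hε : 0 < ε) :
    ∃ ρ : ℝ, ∀ᶠ N : ℕ in atTop, ‖H859.CL.st (mT (H85.cdat ν hν) hT) (S ρ)
      (H34.Ind.pi (H85.cdat ν hν) (V := V) hT.adjV (b ^ N)
        (Lp.const 2 (H85.cdat ν hν).μ (c • ξ i)))‖ ≤ ε := by
  obtain ⟨ρ, hρ⟩ := h ((ε / (‖c‖ + 1)) ^ 2) (by positivity)
  refine ⟨ρ, hρ.mono fun N hN => ?_⟩
  rw [mX_ind hν hT hh hT' hΓ] at hN
  have h1 : ‖H859.CL.st (mT (H85.cdat ν hν) hT) (S ρ)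
      (H34.Ind.pi (H85.cdat ν hν) (V := V) hT.adjV (b ^ N)
        (Lp.const 2 (H85.cdat ν hν).μ (ξ i)))‖ ^ 2 ≤ (ε / (‖c‖ + 1)) ^ 2 :=
    (Finset.single_le_sum (f := fun i => ‖H859.CL.st (mT (H85.cdat ν hν) hT) (S ρ)
      (H34.Ind.pi (H85.cdat ν hν) (V := V) hT.adjV (b ^ N)
        (Lp.const 2 (H85.cdat ν hν).μ (ξ i)))‖ ^ 2) (fun i _ => by positivity)
      (Finset.mem_univ i)).trans hN
  have h2 := (sq_le_sq₀ (norm_nonneg _) (by positivity)).1 h1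
  have e1 : (Lp.const 2 (H85.cdat ν hν).μ (c • ξ i) : Lp ℋ 2 (H85.cdat ν hν).μ) =
      c • Lp.const 2 (H85.cdat ν hν).μ (ξ i) := rfl
  rw [e1, map_smul, map_smul, norm_smul]
  have h3 : 0 < ‖c‖ + 1 := by positivity
  calc _ ≤ ‖c‖ * (ε / (‖c‖ + 1)) := mul_le_mul_of_nonneg_left h2 (norm_nonneg _)
    _ ≤ (‖c‖ + 1) * (ε / (‖c‖ + 1)) :=
        mul_le_mul_of_nonneg_right (by linarith) (by positivity)
    _ = ε := by field_simp

/-- **The positions for the honest family, one factor**: vectors. -/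
theorem posT_vec (hk : LocK k) (hm : 0 < m) (hι : Continuous ι) {a : E →* PG k (m + 2)}
    (ha : Continuous a) (hcomp : ∀ g, a (ι g) = sp k (m + 2) g) {w : kˣ} (hw : ‖(w : k)‖ < 1)
    {q : Γ → GG k (m + 1)} (hq : PH q) (hf : ∀ C : ℝ, {γ : Γ | nm (q γ) ≤ C}.Finite) {b : E}
    (hb : b = ι (bw w) ∨ b = (ι (bw w))⁻¹) (c : ℂ) (i : κ) {ε : ℝ} (hε : 0 < ε) :
    ∃ r : ℝ, ∀ᶠ N : ℕ in atTop, ‖H859.CL.st (mT (H85.cdat ν hν) hT)
      {γ | r < G2 (q γ) ∧ r < G2 (ct (q γ))} (H34.Ind.pi (H85.cdat ν hν) (V := V) hT.adjV (b ^ N)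
        (Lp.const 2 (H85.cdat ν hν).μ (c • ξ i)))‖ ≤ ε := by
  obtain ⟨h1, h2⟩ := posT_mX hν hT hh hT' hΓ pic htv hk hm hι ha hcomp hw hq hf
  rcases hb with rfl | rfl
  · exact vec_of_mX hν hT hh hT' hΓ (S := fun r => {γ | r < G2 (q γ) ∧ r < G2 (ct (q γ))}) h1 c i hε
  · exact vec_of_mX hν hT hh hT' hΓ (S := fun r => {γ | r < G2 (q γ) ∧ r < G2 (ct (q γ))}) h2 c i hε

end fam

end Vale.Agent.P092.H34.HMK
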