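import Vale.Agent.P092.SNT.X
import Vale.Agent.P092.H325.NXs

/-!
P092, TEAM N, all amplifications (helper34): `SN.X.XCStmt k`, every local field (proofs of
helper325 with `RC.PicX` in the place of `RC.Pic`).
-/

set_option linter.all false
open scoped InnerProductSpace ENNReal ZeroAtInfty Pointwise
open Filter Topology ContinuousLinearMap MeasureTheory

namespace Vale.Agent.P092.H34.XN

section pt

open Vale.Agent.P092.H325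


open Vale.Agent.P092.RC (Cm TRN)
open Vale.Agent.P092.H295
open Vale.Agent.P092.H715.Disj (Disj)

variable {G₁ G₂ : Type}
  [Group G₁] [TopologicalSpace G₁] [IsTopologicalGroup G₁] [T2Space G₁] [LocallyCompactSpace G₁]
  [SecondCountableTopology G₁] [MeasurableSpace G₁] [BorelSpace G₁]
  [Group G₂] [TopologicalSpace G₂] [IsTopologicalGroup G₂] [T2Space G₂] [LocallyCompactSpace G₂]
  [SecondCountableTopology G₂] [MeasurableSpace G₂] [BorelSpace G₂]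
variable {Γ₁ Γ₂ H E₀ : Type} [Group Γ₁] [Group Γ₂] [Group H] [Group E₀] [TopologicalSpace E₀]
variable {K : Type} [NormedAddCommGroup K] [InnerProductSpace ℂ K] [CompleteSpace K]
variable {P : Type} [TopologicalSpace P] [CompactSpace P] [T2Space P] [MulAction G₁ P]
  [ContinuousSMul G₁ P]
variable {π₀ : E₀ →* (K →L[ℂ] K)} {lam₁ : Γ₁ →* (K →L[ℂ] K)} {lam₂ : Γ₂ →* (K →L[ℂ] K)}
  {X : Set (K →L[ℂ] K)} {Ω : K} {q₁ : Γ₁ →* G₁} {q₂ : Γ₂ →* G₂} {ι₁ : H →* G₁} {ι₂ : H →* G₂}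
  {Q₁ : C₀(G₁, ℂ) →⋆ₙₐ[ℂ] (K →L[ℂ] K)} {Q₂ : C₀(G₂, ℂ) →⋆ₙₐ[ℂ] (K →L[ℂ] K)}

/-- the structure `LgI` from the picture of the whole source group `E₀`, with `j : H →* E₀` -/
theorem lgI_of' (μ : Measure G₁) [μ.IsHaarMeasure] [μ.IsMulRightInvariant] {W : Set (K →L[ℂ] K)}
    (j : H →* E₀) (hPic : RC.PicX π₀ lam₁ W Ω)
    (tv : ∀ Y, Cm W Y → (∀ γ, Y * lam₁ γ = lam₁ γ * Y) → ∀ h : H,
      ⟪π₀ (j h) Ω, Y (π₀ (j h) Ω)⟫_ℂ = ⟪Ω, Y Ω⟫_ℂ)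
    {y : P} {E : C(P, ℂ) →⋆ₐ[ℂ] (K →L[ℂ] K)} (hp : Pt (π₀.comp j) lam₁ W q₁ ι₁ y E Q₁) :
    LgI μ ι₁ (π₀.comp j) lam₁ W Ω q₁ Q₁ := by
  letI : TopologicalSpace H := ⊤
  have hd : ∀ c : C₀(G₁, ℂ), HasCompactSupport c → ∀ ξ,
      ∫⁻ g, ‖Q₁ (ltr g c) ξ‖ₑ ^ 2 ∂μ = (∫⁻ g, ‖c g‖ₑ ^ 2 ∂μ) * ‖ξ‖ₑ ^ 2 := by
    intro c hc ξ
    have h1 := H295.sq_int μ hp.nd c hc ξ
    have h2 := H295.integrable_sq μ hp.nd c hc ξ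
    have h3 : ∫⁻ g, ‖Q₁ (ltr g c) ξ‖ₑ ^ 2 ∂μ = ENNReal.ofReal (∫ g, ‖Q₁ (ltr g c) ξ‖ ^ 2 ∂μ) := by
      rw [ofReal_integral_eq_lintegral_ofReal h2 (Eventually.of_forall fun g => by positivity)]
      refine lintegral_congr fun g => ?_
      rw [← ofReal_norm_eq_enorm, ← ENNReal.ofReal_pow (norm_nonneg _)]
    have h4 : Continuous fun g => ‖c g‖ ^ 2 := (map_continuous c).norm.pow 2
    have h5 : HasCompactSupport fun g => ‖c g‖ ^ 2 :=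
      hc.comp_left (g := fun z : ℂ => ‖z‖ ^ 2) (by simp)
    have h6 : Integrable (fun g => ‖c g‖ ^ 2) μ := h4.integrable_of_hasCompactSupport h5
    have h7 : ∫⁻ g, ‖c g‖ₑ ^ 2 ∂μ = ENNReal.ofReal (H295.sq μ c) := by
      unfold H295.sq
      rw [ofReal_integral_eq_lintegral_ofReal h6 (Eventually.of_forall fun g => by positivity)]
      refine lintegral_congr fun g => ?_
      rw [← ofReal_norm_eq_enorm, ← ENNReal.ofReal_pow (norm_nonneg _)]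
    rw [h3, h1, h7, ENNReal.ofReal_mul (H295.sq_nonneg' μ c),
      ENNReal.ofReal_pow (norm_nonneg _), ofReal_norm_eq_enorm]
  exact ⟨fun g => by
      rw [MonoidHom.comp_apply, MonoidHom.comp_apply, map_inv]
      exact hPic.adjP (j g), hPic.adjL, hPic.Wadj, hPic.nΩ, hPic.tr_adj, hPic.tr_zero, tv, hp.cm,
    hp.cov, hp.pcov, hd⟩

/-- **[N-XC], abstract form**: the calculus of a point of the first leg commutes with the classical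
calculus of the second leg. `G₁`, `G₂` may be products; `P` is then the space of one coordinate.
From the second leg only `nd`, `cm`, `cov`, `pcov` are used. -/
theorem xc_pt [Countable Γ₁] (μ₁ : Measure G₁) [μ₁.IsHaarMeasure] [μ₁.IsMulRightInvariant]
    (μ₂ : Measure G₂) [μ₂.IsHaarMeasure] [μ₂.IsMulRightInvariant] (j : H →* E₀)
    (hPic : RC.PicX π₀ lam₁ (X ∪ Set.range lam₂) Ω)
    (tv : ∀ Y, Cm (X ∪ Set.range lam₂) Y → (∀ γ, Y * lam₁ γ = lam₁ γ * Y) → ∀ h : H,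
      ⟪π₀ (j h) Ω, Y (π₀ (j h) Ω)⟫_ℂ = ⟪Ω, Y Ω⟫_ℂ)
    (hN : ∀ C : Set G₁, IsCompact C → ∃ N : ℕ, ∀ g,
      ∑' γ, C.indicator (1 : G₁ → ℝ≥0∞) (q₁ γ * g) ≤ N)
    {y : P} {E : C(P, ℂ) →⋆ₐ[ℂ] (K →L[ℂ] K)}
    (hp : Pt (π₀.comp j) lam₁ (X ∪ Set.range lam₂) q₁ ι₁ y E Q₁)
    (adj₂ : ∀ γ, adjoint (lam₂ γ) = lam₂ γ⁻¹)
    (nd₂ : ∀ ξ, (∀ ψ, Q₂ ψ ξ = 0) → ξ = 0) (cm₂ : ∀ ψ, Cm (X ∪ Set.range lam₁) (Q₂ ψ))
    (cov₂ : ∀ γ ψ, lam₂ γ * Q₂ ψ * lam₂ γ⁻¹ = Q₂ (ltr (q₂ γ) ψ))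
    (pcov₂ : ∀ (h : H) ψ, π₀ (j h) * Q₂ ψ * π₀ (j h)⁻¹ = Q₂ (rtr (ι₂ h) ψ))
    {M : Set H} (hM : ∀ u ∈ M, ∀ v ∈ M, Commute u v) (fix : ∀ u ∈ M, ι₁ u • y = y)
    (hD : Disj ι₁ M y) (f : C(P, ℂ)) (χ : C₀(G₂, ℂ)) : Commute (E f) (Q₂ χ) := by
  have hL := lgI_of' μ₁ j hPic tv hp
  refine commute_of_uniq (q₂ := q₂) (ι₂ := ι₂) (π := π₀.comp j) μ₂ hp nd₂ cm₂ cov₂ (fun h ψ => ?_)
    (fun g => ?_) hPic.adjL adj₂ M hM fix (hL.uniq hN hM hD hp) f χ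
  · rw [MonoidHom.comp_apply, MonoidHom.comp_apply, map_inv]
    exact pcov₂ h ψ
  · rw [MonoidHom.comp_apply, MonoidHom.comp_apply, map_inv]
    exact hPic.adjP (j g)


end pt

section nx

open scoped LinearAlgebra.Projectivization
open Matrix
open Vale.Agent.P092.RC (Cm TRN GG PG YY)
open Vale.Agent.P092.SN (CY PH UD nm)
open Vale.Agent.P092.H295
open Vale.Agent.P092.H715.Disj (Disj NN nn_comm nn_fix disj_nn sv sv_ne)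
open Vale.Agent.P092.H35 (sp)
open Vale.Agent.P092.H35.Sig (sgm)
open Vale.Agent.P092.H325 hiding nXc_gen nXc xc_pt lgI_of'

section xc

variable {k : Type} [NontriviallyNormedField k] [ProperSpace k] {N : ℕ} {E₀ Γ₁ Γ₂ K : Type}
  [Group E₀] [TopologicalSpace E₀] [Group Γ₁] [Group Γ₂] [NormedAddCommGroup K]
  [InnerProductSpace ℂ K] [CompleteSpace K]
  {ι : GG k N →* E₀} {π : E₀ →* (K →L[ℂ] K)} {lam₁ : Γ₁ →* (K →L[ℂ] K)}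
  {lam₂ : Γ₂ →* (K →L[ℂ] K)} {X : Set (K →L[ℂ] K)} {Ω : K} {q₁ : Γ₁ → GG k N}
  {E₁ : YY k N → (CY k N →⋆ₐ[ℂ] (K →L[ℂ] K))} {σ₁ : k →+* k}
  {Q₁ : C₀(PG k (N + 1), ℂ) →⋆ₙₐ[ℂ] (K →L[ℂ] K)}

/-- **[N-XC]**, the second leg with any target group -/
theorem nXc_gen [Countable Γ₁] {G₂ : Type} [Group G₂] [TopologicalSpace G₂]
    [IsTopologicalGroup G₂] [T2Space G₂] [LocallyCompactSpace G₂] [SecondCountableTopology G₂]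
    [MeasurableSpace G₂] [BorelSpace G₂] (μ₂ : Measure G₂) [μ₂.IsHaarMeasure]
    [μ₂.IsMulRightInvariant] {q₂ : Γ₂ →* G₂} {ι₂ : GG k N →* G₂}
    {Q₂ : C₀(G₂, ℂ) →⋆ₙₐ[ℂ] (K →L[ℂ] K)}
    (hPic : RC.PicX π lam₁ (X ∪ Set.range lam₂) Ω)
    (tv : ∀ Y, Cm (X ∪ Set.range lam₂) Y → (∀ γ, Y * lam₁ γ = lam₁ γ * Y) → ∀ h : GG k N,
      ⟪π (ι h) Ω, Y (π (ι h) Ω)⟫_ℂ = ⟪Ω, Y Ω⟫_ℂ)
    (adj₂ : ∀ γ, adjoint (lam₂ γ) = lam₂ γ⁻¹) (ph₁ : PH q₁)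
    (ov₁ : ∀ C : Set (PG k (N + 1)), IsCompact C → ∃ M : ℕ, ∀ g : PG k (N + 1),
      ∑' γ, C.indicator (1 : PG k (N + 1) → ℝ≥0∞) (qP q₁ ph₁ γ * g) ≤ M)
    (h₁ : ClsI ι π lam₁ (X ∪ Set.range lam₂) q₁ E₁ σ₁ Q₁)
    (nd₂ : ∀ ξ, (∀ ψ, Q₂ ψ ξ = 0) → ξ = 0) (cm₂ : ∀ ψ, Cm (X ∪ Set.range lam₁) (Q₂ ψ))
    (cov₂ : ∀ γ ψ, lam₂ γ * Q₂ ψ * lam₂ γ⁻¹ = Q₂ (ltr (q₂ γ) ψ))
    (pcov₂ : ∀ (h : GG k N) ψ, π (ι h) * Q₂ ψ * π (ι h)⁻¹ = Q₂ (rtr (ι₂ h) ψ))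
    (ψ : C₀(PG k (N + 1), ℂ)) (χ : C₀(G₂, ℂ)) : Commute (Q₁ ψ) (Q₂ χ) := by
  letI : MeasurableSpace (PG k (N + 1)) := borel _
  haveI : BorelSpace (PG k (N + 1)) := ⟨rfl⟩
  haveI : (Measure.haar : Measure (PG k (N + 1))).IsMulRightInvariant :=
    H626.rightInv_pg k (N + 1) _
  haveI : Infinite k := NontriviallyNormedField.infinite k
  refine (h₁.gen (T := Q₂ χ) (fun y f => Commute.symm ?_) ψ).symm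
  obtain ⟨⟨v, hv⟩, rfl⟩ := H820.pj_surj y
  have hpt := h₁.pt ph₁ (H820.pj k (Fin (N + 1)) ⟨v, hv⟩)
  have e : sgm σ₁ (N + 1) (H820.pj k (Fin (N + 1)) ⟨v, hv⟩) =
      H820.pj k (Fin (N + 1)) ⟨sv σ₁ v, sv_ne σ₁ hv⟩ := rfl
  rw [e] at hpt
  exact xc_pt (Measure.haar : Measure (PG k (N + 1))) μ₂ ι hPic tv
    ov₁ hpt adj₂ nd₂ cm₂ cov₂ pcov₂ (M := NN v)
    (fun u hu u' hu' => nn_comm v hu hu') (fun u hu => nn_fix σ₁ hv hu)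
    (disj_nn σ₁ (H35.Sig.unb σ₁) _ (fun h x => rfl) hv) f χ

/-- **[N-XC] two classical legs commute.** -/
theorem nXc [Countable Γ₁] {q₂ : Γ₂ → GG k N} {E₂ : YY k N → (CY k N →⋆ₐ[ℂ] (K →L[ℂ] K))}
    {σ₂ : k →+* k} {Q₂ : C₀(PG k (N + 1), ℂ) →⋆ₙₐ[ℂ] (K →L[ℂ] K)}
    (hPic : RC.PicX π lam₁ (X ∪ Set.range lam₂) Ω)
    (tv : ∀ Y, Cm (X ∪ Set.range lam₂) Y → (∀ γ, Y * lam₁ γ = lam₁ γ * Y) → ∀ h : GG k N,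
      ⟪π (ι h) Ω, Y (π (ι h) Ω)⟫_ℂ = ⟪Ω, Y Ω⟫_ℂ)
    (adj₂ : ∀ γ, adjoint (lam₂ γ) = lam₂ γ⁻¹) (ph₁ : PH q₁)
    (ov₁ : ∀ C : Set (PG k (N + 1)), IsCompact C → ∃ M : ℕ, ∀ g : PG k (N + 1),
      ∑' γ, C.indicator (1 : PG k (N + 1) → ℝ≥0∞) (qP q₁ ph₁ γ * g) ≤ M) (ph₂ : PH q₂)
    (h₁ : ClsI ι π lam₁ (X ∪ Set.range lam₂) q₁ E₁ σ₁ Q₁)
    (h₂ : ClsI ι π lam₂ (X ∪ Set.range lam₁) q₂ E₂ σ₂ Q₂) (ψ φ : C₀(PG k (N + 1), ℂ)) :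
    Commute (Q₁ ψ) (Q₂ φ) := by
  letI : MeasurableSpace (PG k (N + 1)) := borel _
  haveI : BorelSpace (PG k (N + 1)) := ⟨rfl⟩
  haveI : (Measure.haar : Measure (PG k (N + 1))).IsMulRightInvariant :=
    H626.rightInv_pg k (N + 1) _
  exact nXc_gen (Measure.haar : Measure (PG k (N + 1))) (q₂ := qP q₂ ph₂)
    (ι₂ := (sp k (N + 1)).comp (SpecialLinearGroup.map σ₂)) hPic tv adj₂ ph₁ ov₁ h₁
    h₂.nd h₂.cm (fun γ ψ => h₂.cov γ ψ _ fun x => rfl) (fun h ψ => h₂.pcov h ψ _ fun x => rfl) ψ φ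

end xc

end nx

section fin

open Vale.Agent.P092.RC (Cm TRN GG PG YY)
open Vale.Agent.P092.H325 (overlap_disc clsI_of)

/-- **[N-XC]** for `RC.PicX` -/
theorem xcStmt (k : Type) [NontriviallyNormedField k] [ProperSpace k] : SN.X.XCStmt k := by
  intro N E Γ K _ _ _ _ _ _ _ ι a a' π lam₁ lam₂ X Ω q₁ q₂ E₁ E₂ σ₁ σ₂ Q₁ Q₂ hA hP hP' _ _ t₁ t₂
    p₁ p₂ d₁ d₂ h₁ h₂ ψ φ
  exact nXc hP (fun Y h1 h2 h => t₁ Y ⟨h1, h2⟩ (ι h)) hP'.adjL p₁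
    (fun C hC => overlap_disc p₁ d₁ hC) p₂ (clsI_of hA h₁) (clsI_of hA h₂) ψ φ

end fin

end Vale.Agent.P092.H34.XN
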