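import Vale.Agent.P092.H962.C.Amp

/-!
P092, all amplifications (helper34): the picture `RC.Pic` without the field `inv`. It is all the
joints of Teams D and N use, and it is satisfied by every amplification `K ⊗ ℂ^Q` of the picture of
a finite family.
-/

set_option linter.all false

open scoped InnerProductSpace ENNReal
open Filter Topology ContinuousLinearMap MeasureTheory TopologicalSpace

namespace Vale.Agent.P092.RC

open Vale.Agent.P092.H333.Amp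

section defs

variable {G Γ K : Type} [Group G] [TopologicalSpace G] [Group Γ] [NormedAddCommGroup K]
  [InnerProductSpace ℂ K] [CompleteSpace K]

/-- `RC.Pic` without the field `inv` -/
structure PicW (π : G →* (K →L[ℂ] K)) (lam : Γ →* (K →L[ℂ] K)) (W : Set (K →L[ℂ] K)) (Ω : K) :
    Prop where
  adjP : ∀ g, adjoint (π g) = π g⁻¹
  contP : ∀ ξ, Continuous fun g => π g ξ
  adjL : ∀ γ, adjoint (lam γ) = lam γ⁻¹
  comm : ∀ g γ, π g * lam γ = lam γ * π g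
  Wadj : ∀ w ∈ W, adjoint w ∈ W
  WP : ∀ w ∈ W, ∀ g, π g * w * π g⁻¹ ∈ W
  WL : ∀ w ∈ W, ∀ γ, w * lam γ = lam γ * w
  nΩ : ‖Ω‖ = 1
  erg : ∀ S : Set G, Moore S → ∀ T, Cm W T → (∀ γ, T * lam γ = lam γ * T) →
    (∀ g ∈ S, T * π g = π g * T) → ∃ z : ℂ, T = z • (1 : K →L[ℂ] K)
  tr_adj : ∀ T, Cm W T → TRN lam Ω (adjoint T) = TRN lam Ω T
  tr_conj : ∀ T, Cm W T → ∀ g, TRN lam Ω (π g * T * π g⁻¹) = TRN lam Ω T
  tr_zero : ∀ T, Cm W T → TRN lam Ω T = 0 → T = 0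
  hs_erg : ∀ S : Set G, Moore S → ∀ T, Cm W T → TRN lam Ω T < ∞ →
    (∀ g ∈ S, T * π g = π g * T) → T = 0

theorem Pic.toW {π : G →* (K →L[ℂ] K)} {lam : Γ →* (K →L[ℂ] K)} {W : Set (K →L[ℂ] K)} {Ω : K}
    (h : Pic π lam W Ω) : PicW π lam W Ω :=
  ⟨h.adjP, h.contP, h.adjL, h.comm, h.Wadj, h.WP, h.WL, h.nΩ, h.erg, h.tr_adj, h.tr_conj,
    h.tr_zero, h.hs_erg⟩

theorem PicX.toW {π : G →* (K →L[ℂ] K)} {lam : Γ →* (K →L[ℂ] K)} {W : Set (K →L[ℂ] K)} {Ω : K}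
    (h : PicX π lam W Ω) : PicW π lam W Ω :=
  ⟨h.adjP, h.contP, h.adjL, h.comm, h.Wadj, h.WP, h.WL, h.nΩ, h.erg, h.tr_adj, h.tr_conj,
    h.tr_zero, h.hs_erg⟩

end defs

section amp

variable {Γ K ι Q : Type} [Group Γ] [NormedAddCommGroup K]
  [InnerProductSpace ℂ K] [CompleteSpace K] [Fintype ι] [Group Q] [Fintype Q]
  {G : Type} [Group G] [TopologicalSpace G]
  {π : G →* (K →L[ℂ] K)} {lam : Γ →* (K →L[ℂ] K)} {W : Set (K →L[ℂ] K)} {Ω : ι → K}

/-- **The amplified picture has one vector** (all amplifications into which the family embeds). -/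
theorem PicF.ampW (h : PicF π lam W Ω) (j : ι ↪ Q) :
    PicW (ampH Q π) (ampH Q lam) (ampW Q W) (ampO j Ω) where
  adjP g := by rw [ampH_ap, adjoint_amp, h.adjP]; rfl
  contP ξ := cont_amp h.contP ξ
  adjL g := by rw [ampH_ap, adjoint_amp, h.adjL]; rfl
  comm g γ := amp_comm_iff.2 (h.comm g γ)
  Wadj := by
    rintro _ (⟨w, hw, rfl⟩ | ⟨f, rfl⟩)
    · rw [adjoint_amp]
      exact Or.inl ⟨_, h.Wadj w hw, rfl⟩
    · rw [adjoint_sg]
      exact Or.inr ⟨_, rfl⟩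
  WP := by
    rintro _ (⟨w, hw, rfl⟩ | ⟨f, rfl⟩) g
    · rw [ampH_ap, ampH_ap, ← amp_mul, ← amp_mul]
      exact Or.inl ⟨_, h.WP w hw g, rfl⟩
    · have h1 : π g * π g⁻¹ = 1 := by rw [← map_mul, mul_inv_cancel, map_one]
      rw [ampH_ap, ampH_ap, amp_sg, mul_assoc, ← amp_mul, h1, amp_one, mul_one]
      exact Or.inr ⟨_, rfl⟩
  WL := by
    rintro _ (⟨w, hw, rfl⟩ | ⟨f, rfl⟩) γ
    · exact amp_comm_iff.2 (h.WL w hw γ)
    · exact (amp_sg _ _).symm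
  nΩ := norm_one_ampO j h.nΩ
  erg S hS T hT hl hp := by
    obtain ⟨T', rfl, hT'⟩ := cm_ampW.1 hT
    obtain ⟨z, hz⟩ := h.erg S hS T' hT' (fun γ => amp_comm_iff.1 (hl γ))
      (fun g hg => amp_comm_iff.1 (hp g hg))
    exact ⟨z, by rw [hz, amp_smul, amp_one]⟩
  tr_adj T hT := by
    obtain ⟨T', rfl, hT'⟩ := cm_ampW.1 hT
    rw [adjoint_amp, trn_amp, trn_amp, h.tr_adj T' hT']
  tr_conj T hT g := by
    obtain ⟨T', rfl, hT'⟩ := cm_ampW.1 hT
    rw [ampH_ap, ampH_ap, ← amp_mul, ← amp_mul, trn_amp, trn_amp, h.tr_conj T' hT' g]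
  tr_zero T hT h0 := by
    obtain ⟨T', rfl, hT'⟩ := cm_ampW.1 hT
    rw [trn_amp] at h0
    rw [h.tr_zero T' hT' h0, amp_zero]
  hs_erg S hS T hT hf hp := by
    obtain ⟨T', rfl, hT'⟩ := cm_ampW.1 hT
    rw [trn_amp] at hf
    rw [h.hs_erg S hS T' hT' hf fun g hg => amp_comm_iff.1 (hp g hg), amp_zero]

/-- a finite group which contains a given finite set -/
theorem exists_emb (ι : Type) [Fintype ι] : ∃ (Q : Type) (_ : Group Q) (_ : Fintype Q),
    Nonempty (ι ↪ Q) := by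
  classical
  refine ⟨Multiplicative (ZMod (Fintype.card ι + 1)), inferInstance, inferInstance, ?_⟩
  refine Function.Embedding.nonempty_of_card_le ?_
  rw [Fintype.card_multiplicative, ZMod.card]
  exact Nat.le_succ _

end amp

end Vale.Agent.P092.RC
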