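import Vale.Agent.P092.H34.X.ScF
import Vale.Agent.P092.H21.RowM

/-!
P092 (helper34), Team N, [N-GAPB], all amplifications: `BaseF`, the masses and `SharpData` on the
picture `L²(E/Γ; ℋ)` of a triple with an honest family, any source group `E`.
-/

set_option linter.all false

open scoped InnerProductSpace ENNReal
open Filter Topology ContinuousLinearMap MeasureTheory TopologicalSpace

namespace Vale.Agent.P092.H34.HMK

open Vale.Agent.P092.SR Vale.Agent.P092.H160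
open Vale.Agent.P092.H859.CL (Fn Leg Slow BB)
open Vale.Agent.P092.RC (PicF Moore)
open Vale.Agent.P092.H790 (CData Ri baseL)
open Vale.Agent.P092.H538 (fst)
open Vale.Agent.P092.H132 (massX)
open Vale.Agent.P092.H21 (Hon UT RT mT JT ijT JT_mT JT_pi JT_fam ri_one_ept BdT BfT WT arepT covFamT
  ET ET_lx)
open Vale.Agent.P092.SNT (TVEF)

section base

variable {E : Type} [Group E] [TopologicalSpace E] [IsTopologicalGroup E] [LocallyCompactSpace E]
  [SecondCountableTopology E] [T2Space E] [MeasurableSpace E] [BorelSpace E]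
  {Γ : Subgroup E} [DiscreteTopology Γ] [Countable Γ] [MeasurableSpace (E ⧸ Γ)]
  [BorelSpace (E ⧸ Γ)] {ν : Measure (E ⧸ Γ)} [IsProbabilityMeasure ν]
  (hν : ∀ g : E, ν.map (fun x => g • x) = ν)
  {κ κ' ℋ : Type} [Fintype κ] [Fintype κ'] [NormedAddCommGroup ℋ] [InnerProductSpace ℂ ℋ]
  [CompleteSpace ℋ] {V R₁ R₂ : Γ →* (ℋ →L[ℂ] ℋ)} {ξ : κ → ℋ} {ξ' : κ' → ℋ}
  (hT : Tri V R₁ R₂ ξ) (hh : Hon R₁ R₂ ξ) (hT' : Tri R₁ V R₂ ξ')
  (hΓ : ∀ g : Γ, g ≠ 1 → Set.Infinite {y : Γ | ∃ h, y = h * g * h⁻¹})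

/-- The mass of the row model. -/
noncomputable def mX (g : E) (F : Γ → ℝ) : ℝ :=
  massX (fst (baseL (H85.cdat ν hν).μ (Γ × Γ) κ)) (Ri (H85.cdat ν hν) (RT hT)) g F

include hh hT' hΓ in
/-- The mass of the row model is the sum over the honest family. -/
theorem mX_fam (g : E) {F : Γ → ℝ} {C : ℝ} (hF : ∀ x, |F x| ≤ C) :
    mX hν hT g F = ∑ i, (⟪H34.Ind.pi (H85.cdat ν hν) (V := V) hT.adjV g
        (Lp.const 2 (H85.cdat ν hν).μ (ξ i)),
      mT (H85.cdat ν hν) hT F (H34.Ind.pi (H85.cdat ν hν) (V := V) hT.adjV g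
        (Lp.const 2 (H85.cdat ν hν).μ (ξ i)))⟫_ℂ).re := by
  have hR := arepT hT hΓ hT'
  rw [mX, massX]
  refine Finset.sum_congr rfl fun i _ => ?_
  congr 1
  obtain ⟨x, hx⟩ : ∃ x, x = H34.Ind.pi (H85.cdat ν hν) (V := V) hT.adjV g
    (Lp.const 2 (H85.cdat ν hν).μ (ξ i)) := ⟨_, rfl⟩
  have e1 : JT (H85.cdat ν hν) hT x = Ri (H85.cdat ν hν) (RT hT) g
      (H790.ept (H85.cdat ν hν).μ i) := by
    have e2 := JT_fam (H85.cdat ν hν) hT 1 i
    rw [one_smul, one_smul] at e2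
    rw [hx, JT_pi, e2, ri_one_ept (H85.cdat ν hν) hT hR]
  rw [← hx]
  change ⟪Ri (H85.cdat ν hν) (RT hT) g (H790.ept (H85.cdat ν hν).μ i),
    (fst (baseL (H85.cdat ν hν).μ (Γ × Γ) κ)).mp F (Ri (H85.cdat ν hν) (RT hT) g
      (H790.ept (H85.cdat ν hν).μ i))⟫_ℂ = _
  rw [← e1, ← JT_mT (H85.cdat ν hν) hT hh hF]
  have e3 := (ijT (H85.cdat ν hν) hT).left (mT (H85.cdat ν hν) hT F x)
  rw [← adjoint_inner_right, e3]

include hT' hΓ in
/-- **`SharpData` of the masses.** -/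
theorem sharp_mX [DecidableEq Γ] : H761.SharpData (H21.dmT ξ) (mX hν hT)
    (fun K : Set E => IsCompact K) (H261.PingT E) :=
  H761.sharpCoef Γ ν hν (arepT hT hΓ hT') (covFamT hT hT') fun A q => ET_lx hT hT' A q

include hh hT' hΓ in
/-- The masses of sets. -/
theorem mX_ind (g : E) (S : Set Γ) :
    mX hν hT g (H538.ind fun x => x ∈ S) = ∑ i, ‖H859.CL.st (mT (H85.cdat ν hν) hT) S
      (H34.Ind.pi (H85.cdat ν hν) (V := V) hT.adjV g
        (Lp.const 2 (H85.cdat ν hν).μ (ξ i)))‖ ^ 2 := by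
  rw [mX_fam hν hT hh hT' hΓ g (C := 1) fun x => H538.abs_ind_le _ _]
  refine Finset.sum_congr rfl fun i _ => ?_
  obtain ⟨x, hx⟩ : ∃ x, x = H34.Ind.pi (H85.cdat ν hν) (V := V) hT.adjV g
    (Lp.const 2 (H85.cdat ν hν).μ (ξ i)) := ⟨_, rfl⟩
  rw [← hx]
  have hP := (H21.fn_T (H85.cdat ν hν) hT hh).prj
  have e1 : mT (H85.cdat ν hν) hT (H538.ind fun x => x ∈ S) =
      H859.CL.st (mT (H85.cdat ν hν) hT) S * H859.CL.st (mT (H85.cdat ν hν) hT) S := by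
    rw [← hP.inter, Set.inter_self]
    rfl
  have e2 : adjoint (H859.CL.st (mT (H85.cdat ν hν) hT) S) =
      H859.CL.st (mT (H85.cdat ν hν) hT) S := hP.adj S
  have e3 : ⟪x, mT (H85.cdat ν hν) hT (H538.ind fun x => x ∈ S) x⟫_ℂ =
      ⟪H859.CL.st (mT (H85.cdat ν hν) hT) S x, H859.CL.st (mT (H85.cdat ν hν) hT) S x⟫_ℂ := by
    rw [e1, ContinuousLinearMap.mul_apply, ← adjoint_inner_left, e2]
  rw [e3, inner_self_eq_norm_sq_to_K]
  norm_cast

include hh hT' hΓ in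
/-- **`BaseF` on the picture.** -/
theorem baseT {κ₀ : Type} [Fintype κ₀] {Ω : κ₀ → Lp ℋ 2 (H85.cdat ν hν).μ}
    (pic : PicF (H34.Ind.pi (H85.cdat ν hν) (V := V) hT.adjV) (H34.Ind.lam (H85.cdat ν hν) R₁)
      (WT (H85.cdat ν hν) R₂) Ω) {S : Type} [Group S] [TopologicalSpace S] {θ : S →* E}
    (hθ : Continuous θ) {z : ℕ → E} (hz : ∀ N s, θ s * z N = z N * θ s) {Nb : Set E}
    (con : ∀ n ∈ Nb, Tendsto (fun N => z N * n * (z N)⁻¹) atTop (𝓝 1))
    (nrm : ∀ s, ∀ n ∈ Nb, θ s * n * (θ s)⁻¹ ∈ Nb) :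
    BaseF (H34.Ind.pi (H85.cdat ν hν) (V := V) hT.adjV) (H34.Ind.lam (H85.cdat ν hν) R₁)
      (WT (H85.cdat ν hν) R₂) Ω (mT (H85.cdat ν hν) hT) (BdT (H85.cdat ν hν) hT)
      (BfT (H85.cdat ν hν) hT) θ z Nb := by
  have h0 := H21.sysF_T (H85.cdat ν hν) hT hΓ hT' hh (A := (⊥ : Subgroup E))
    (G1 := fun _ => (0 : ℝ)) (G2 := fun _ => (0 : ℝ))
    (fun s u => ⟨0, fun x => by simp⟩) (fun ε hε => ⟨0, fun u _ => ?_⟩)
  · have hL := H21.leg_T (H85.cdat ν hν) hT hh hΓ hT'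
    exact
      { pic := pic
        fn := h0.fn
        cov := hL.cov
        Wm := hL.Wm
        dense := h0.sys.dense
        norm := h0.sys.norm
        map := h0.sys.map
        slow := H21.slow_T (H85.cdat ν hν) hT hΓ hT' hh (H43.ccont_cdat ν hν)
        loc := H21.loc2_T (H85.cdat ν hν) hT hΓ hT' hh
        cont := hθ
        cz := hz
        con := con
        nrm := nrm }
  · have e : BB (fun _ : Γ => (0 : ℝ)) (fun _ => (0 : ℝ)) 0 = ∅ := by ext g; simp [BB]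
    rw [e]
    have e2 : (H553.ind fun g : Γ => g ∈ (∅ : Set Γ)) =
        fun g => (0 : ℝ) * H538.ind (fun g : Γ => g ∈ (∅ : Set Γ)) g := by
      funext g; simp [H553.ind]
    rw [e2, H132.massX_smul _ _ _ _ 1 0 (fun g => H538.abs_ind_le _ _), zero_mul]
    exact hε.le

end base

end Vale.Agent.P092.H34.HMK
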