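import Vale.Agent.P092.H34.X.PicW
import Vale.Agent.P092.H958.AmpD
import Vale.Agent.P092.H596.I1
import Vale.Agent.P092.H613.AllS
import Vale.Agent.P092.H68.KeyR
import Vale.Agent.P092.H171.Cls

/-!
P092, TEAM D, all amplifications (helper34): in a leg of the picture of a finite family everything
commutes, and the leg is classical. (The proofs of the joints of Team D do not use the field `inv`
of the picture; the leg is amplified, and the conclusions are read on `K`.)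
-/

set_option linter.all false

open scoped InnerProductSpace ENNReal LinearAlgebra.Projectivization ZeroAtInfty
open Filter Topology ContinuousLinearMap MeasureTheory TopologicalSpace

namespace Vale.Agent.P092.SD.X

open Vale.Agent.P092.SD
open Vale.Agent.P092.RC (Cm TRN Moore PicW PicF ampH ampW ampO ampS cm_ampW)
open Vale.Agent.P092.H820 (inc3 inc3_closed)
open Vale.Agent.P092.H333.Amp (KT em amp_mul)
open Vale.Agent.P092.H790.CT (PicL csm)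
open Vale.Agent.P092.H632.SD (exists_g3 exists_g2 cm_mul com_bw com_bw' com_un0 com_un2 com_un'
  m_lam lam_inv star_calc cov_apply)

/-! ### One vector, without `inv` -/

section one

variable {k : Type} [NontriviallyNormedField k] [ProperSpace k] {Γ K : Type} [Group Γ]
  [NormedAddCommGroup K] [InnerProductSpace ℂ K] [CompleteSpace K]
  {π : G3 k →* (K →L[ℂ] K)} {lam : Γ →* (K →L[ℂ] K)} {W : Set (K →L[ℂ] K)} {Ω : K}
  {m : Set Γ → (K →L[ℂ] K)} {q : Γ →* G3 k} {w : kˣ} {E F : PP k → (CP k →⋆ₐ[ℂ] (K →L[ℂ] K))}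

/-- `SD.LegS` with `RC.PicW` -/
structure LegS [MeasurableSpace k] (μ : Measure k) (w : kˣ) (π : G3 k →* (K →L[ℂ] K))
    (lam : Γ →* (K →L[ℂ] K)) (W : Set (K →L[ℂ] K)) (Ω : K) (m : Set Γ → (K →L[ℂ] K))
    (q : Γ →* G3 k) (E F : PP k → (CP k →⋆ₐ[ℂ] (K →L[ℂ] K))) : Prop where
  hw : ‖(w : k)‖ < 1
  pic : PicW π lam W Ω
  ms : Ms lam W Ω m
  inj : Function.Injective q
  disc : ∀ C : ℝ, {γ : Γ | nm (q γ) ≤ C}.Finite
  uc : UC π W Ω m
  orb : ORB μ w π lam W Ω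
  size : SIZE w π Ω m q
  nws : NWS w π Ω m q
  e : EFam w π lam W m q E
  f : EFam w (π.comp (tau k)) lam W m ((tau k).comp q) F

theorem picL (h : PicW π lam W Ω) : PicL π lam W Ω :=
  ⟨h.adjP, h.adjL, h.comm, h.Wadj, h.WP, h.WL, h.tr_adj⟩

open Classical in
theorem trn_mD (hP : PicW π lam W Ω) (h : Ms lam W Ω m) {B : K →L[ℂ] K} (hB : Cm W B)
    (D : Set Γ) : TRN lam Ω (m D * B) = ∑' γ : D, ‖adjoint B (lam γ Ω)‖ₑ ^ 2 := by
  have h1 := hP.tr_adj (m D * B) (cm_mul (h.cm D) hB)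
  have h2 : adjoint (m D * B) = adjoint B * m D := by
    rw [← star_eq_adjoint, star_mul, star_eq_adjoint, star_eq_adjoint, h.adj]
  rw [← h1, h2]
  unfold TRN
  rw [tsum_subtype D (fun γ => ‖adjoint B (lam γ Ω)‖ₑ ^ 2)]
  refine tsum_congr fun γ => ?_
  change ‖adjoint B (m D (lam γ Ω))‖ₑ ^ 2 = _
  rw [m_lam h]
  by_cases hγ : γ ∈ D
  · rw [if_pos hγ, Set.indicator_of_mem hγ]
  · rw [if_neg hγ, Set.indicator_of_notMem hγ]
    simp

theorem lam_unit (hP : PicW π lam W Ω) (γ : Γ) (v : K) : ‖lam γ v‖ = ‖v‖ := by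
  have h1 : ⟪lam γ v, lam γ v⟫_ℂ = ⟪v, v⟫_ℂ := by
    rw [← adjoint_inner_right, hP.adjL]
    have h2 : lam γ⁻¹ (lam γ v) = v := congrArg (fun T : K →L[ℂ] K => T v) (lam_inv lam γ)
    rw [h2]
  rw [inner_self_eq_norm_sq_to_K, inner_self_eq_norm_sq_to_K] at h1
  have h2 : ‖lam γ v‖ ^ 2 = ‖v‖ ^ 2 := by exact_mod_cast h1
  exact (pow_left_inj₀ (norm_nonneg _) (norm_nonneg _) two_ne_zero).mp h2

theorem pi_unit {G : Type} [Group G] [TopologicalSpace G] {π : G →* (K →L[ℂ] K)}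
    {W : Set (K →L[ℂ] K)} (hP : PicW π lam W Ω) (g : G) (v : K) : ‖π g v‖ = ‖v‖ := by
  have h1 : ⟪π g v, π g v⟫_ℂ = ⟪v, v⟫_ℂ := by
    rw [← adjoint_inner_right, hP.adjP]
    have h2 : π g⁻¹ * π g = 1 := by rw [← map_mul, inv_mul_cancel, map_one]
    have h3 : π g⁻¹ (π g v) = v := congrArg (fun T : K →L[ℂ] K => T v) h2
    rw [h3]
  rw [inner_self_eq_norm_sq_to_K, inner_self_eq_norm_sq_to_K] at h1
  have h2 : ‖π g v‖ ^ 2 = ‖v‖ ^ 2 := by exact_mod_cast h1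
  exact (pow_left_inj₀ (norm_nonneg _) (norm_nonneg _) two_ne_zero).mp h2

variable [MeasurableSpace k] [BorelSpace k] {μ : Measure k} [IsFiniteMeasureOnCompacts μ]
  [μ.IsOpenPosMeasure]

/-- the counting principle, polynomial counts -/
theorem emul_poly (h : LegS μ w π lam W Ω m q E F) {g : G3 k} {B : K →L[ℂ] K} (hB : Cm W B)
    (hb : Commute B (π (g * bw w * g⁻¹))) (hn : ∀ s, Commute B (π (g * un s * g⁻¹)))
    {A : Set (PP k)} (hA : IsOpen A) {u : CP k} (hu : tsupport u ⊆ A) (d : ℕ)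
    (hc : ∀ R : ℝ, ∃ T > 0, ∃ C : ℝ, ∀ J : ℝ, 0 ≤ J → ∀ S : Finset Γ,
      (∀ γ ∈ S, NW R (q γ) ∧ Att T A (q γ) ∧ Real.log (nm (q γ)) ≤ J) →
        ∑ γ ∈ S, ‖adjoint B (lam γ Ω)‖ ^ 2 ≤ C * (1 + J) ^ d) :
    E (g • ept k 0) u * B = 0 := by
  refine H790.CT.E_mul_zero (μ := μ) (picL h.pic) h.ms h.uc h.orb h.size h.e hB hb hn hA hu
    fun R => ?_
  obtain ⟨T, hT, C, hC⟩ := hc R
  obtain ⟨η, hη, h'⟩ := H790.CT.of_poly (w := w) (lam := lam) (Ω := Ω) (q := q) h.hw d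
  refine ⟨T, hT, η, hη, h' B {γ | NW R (q γ) ∧ Att T A (q γ)} C fun J hJ S hS' => ?_⟩
  exact hC J hJ S fun γ hγ => ⟨(hS' γ hγ).1.1, (hS' γ hγ).1.2, (hS' γ hγ).2⟩

/-- **[D-KEY]** -/
theorem key (hN : NJStmt k) (h0 : LegS μ w π lam W Ω m q E F)
    (hI : ∀ a l, (a, l) ∈ inc3 (k := k) → Supp (E a) (F l))
    (hC : ∀ a l, (a, l) ∈ inc3 (k := k) → ∀ f h, Commute (E a f) (F l h))
    {a b l : PP k} (hal : (a, l) ∈ inc3 (k := k)) (hbl : (b, l) ∉ inc3 (k := k)) (u f h : CP k)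
    (hf : LipP f) (hni : NInc (tsupport u) (tsupport h))
    (hd : Disjoint (tsupport u) (tsupport f)) : E a u * E b f * F l h = 0 := by
  obtain ⟨g, hga, hgb, hgl⟩ := exists_g3 hal hbl
  have hab : a ≠ b := fun e => hbl (e ▸ hal)
  obtain ⟨n, han, hbn⟩ := H68.exists_line a b hab
  obtain ⟨A, hA, huA, hAf, hAh⟩ := H68.exists_open hni hd
  have hB : Cm W (E b f * F l h) := cm_mul (h0.e.cm b f) (h0.f.cm l h)
  rw [mul_assoc]
  have key := emul_poly h0 (g := g) hB ?_ ?_ hA huA 6 ?_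
  · rw [hga] at key
    exact key
  · refine Commute.mul_left ?_ ?_
    · rw [← hgb]
      have := com_bw h0.e g w 1 2 f
      rwa [pow_one] at this
    · rw [← hgl]
      have := com_bw' h0.f g w 1 2 h
      rwa [pow_one] at this
  · intro s
    refine Commute.mul_left ?_ ?_
    · rw [← hgb]
      exact com_un2 h0.e g s f
    · rw [← hgl]
      exact com_un' h0.f g s h
  · intro R
    obtain ⟨T, hT, C, hC'⟩ := hN q h0.disc (E b) (E a) (F n) (F l) (hI b n hbn) (hI a n han)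
      (hI a l hal) (hC b n hbn) (hC a n han) (hC a l hal) R A (star f) (star h) (H68.LipP.star hf)
      (by rw [H68.tsupport_star]; exact hAh) (by rw [H68.tsupport_star]; exact hAf)
    refine ⟨T, hT, C, fun J hJ S hS => ?_⟩
    have h2 := hC' J hJ S hS Ω
    rw [h0.pic.nΩ, one_pow, mul_one] at h2
    refine le_trans (le_of_eq ?_) h2
    refine Finset.sum_congr rfl fun γ _ => ?_
    congr 1
    have h1 : adjoint (E b f * F l h) = F l (star h) * E b (star f) := by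
      rw [← star_eq_adjoint, star_mul, star_eq_adjoint, star_eq_adjoint, star_calc, star_calc]
    rw [h1]
    change ‖F l (star h) (E b (star f) (lam γ Ω))‖ = _
    rw [cov_apply h0.e, cov_apply h0.f, lam_unit h0.pic, MonoidHom.comp_apply, map_inv q]

end one

/-! ### The real line -/

section real

variable {Γ K : Type} [Group Γ] [NormedAddCommGroup K] [InnerProductSpace ℂ K] [CompleteSpace K]
  {w : ℝˣ} {π : G3 ℝ →* (K →L[ℂ] K)} {lam : Γ →* (K →L[ℂ] K)} {W : Set (K →L[ℂ] K)} {Ω : K}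
  {m : Set Γ → (K →L[ℂ] K)} {q : Γ →* G3 ℝ} {E F : PP ℝ → (CP ℝ →⋆ₐ[ℂ] (K →L[ℂ] K))}

theorem i1_fin {μ : Measure ℝ} (h : LegS μ w π lam W Ω m q E F) (l : PP ℝ) {f : CP ℝ}
    {A : Set (PP ℝ)} (hAn : NInc (closure A) (tsupport (f : PP ℝ → ℂ))) (R : ℝ) :
    ∃ T > 0, ∃ C : ℝ, ∀ J : ℝ, 0 ≤ J → ∀ S : Finset Γ,
      (∀ γ ∈ S, NW R (q γ) ∧ Att T A (q γ) ∧ Real.log (nm (q γ)) ≤ J) →
        ∑ γ ∈ S, ‖adjoint (F l f) (lam γ Ω)‖ ^ 2 ≤ C * (1 + J) ^ 1 := by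
  classical
  obtain ⟨T₀, hT₀, hcount⟩ := H596.i1_count (W := W) (Ω := Ω) (m := m) h.disc h.pic.adjL
    h.pic.tr_adj h.ms (F := F l) (fun f => h.f.cm l f) (fun γ f => h.f.cov γ l f) hAn
  obtain ⟨C, hC, hCb⟩ := hcount T₀ le_rfl R
  refine ⟨T₀, hT₀, 2 * C, fun J hJ S hS => ?_⟩
  have e1 := hCb ⌈J⌉₊
  rw [trn_mD h.pic h.ms (h.f.cm l f)] at e1
  have hS' : ∀ γ ∈ S, γ ∈ {γ | NW R (q γ) ∧ Att T₀ A (q γ) ∧ nm (q γ) ≤ Real.exp ⌈J⌉₊} := by
    intro γ hγ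
    obtain ⟨h5, h6, h7⟩ := hS γ hγ
    refine ⟨h5, h6, ?_⟩
    have h8 : 0 < nm (q γ) := by
      rw [H596.nm_eq]
      linarith [H414.half_le_mx (q γ)]
    calc nm (q γ) = Real.exp (Real.log (nm (q γ))) := (Real.exp_log h8).symm
      _ ≤ Real.exp ⌈J⌉₊ := Real.exp_le_exp.2 (h7.trans (Nat.le_ceil _))
  have e2 : ENNReal.ofReal (∑ γ ∈ S, ‖adjoint (F l f) (lam γ Ω)‖ ^ 2) ≤
      ENNReal.ofReal (C * (⌈J⌉₊ + 1)) := by
    refine le_trans ?_ e1
    rw [ENNReal.ofReal_sum_of_nonneg fun _ _ => by positivity]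
    calc ∑ γ ∈ S, ENNReal.ofReal (‖adjoint (F l f) (lam γ Ω)‖ ^ 2) =
        ∑ γ ∈ S, ‖adjoint (F l f) (lam γ Ω)‖ₑ ^ 2 := by
          refine Finset.sum_congr rfl fun γ _ => ?_
          rw [ENNReal.ofReal_pow (norm_nonneg _), ofReal_norm_eq_enorm]
      _ = ∑' γ : (S : Set Γ), ‖adjoint (F l f) (lam (γ : Γ) Ω)‖ₑ ^ 2 :=
          (Finset.tsum_subtype S fun γ => ‖adjoint (F l f) (lam γ Ω)‖ₑ ^ 2).symm
      _ ≤ _ := ENNReal.tsum_mono_subtype (fun γ => ‖adjoint (F l f) (lam γ Ω)‖ₑ ^ 2) hS'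
  have e3 := (ENNReal.ofReal_le_ofReal_iff (by positivity)).1 e2
  refine e3.trans ?_
  have e4 : ((⌈J⌉₊ : ℕ) : ℝ) ≤ J + 1 := (Nat.ceil_lt_add_one hJ).le
  nlinarith

/-- **[D-I1]** -/
theorem i1 (h : LegS volume w π lam W Ω m q E F) (a l : PP ℝ) (hal : (a, l) ∈ inc3 (k := ℝ)) :
    Supp (E a) (F l) := by
  intro u f hn
  obtain ⟨g, hga, hgl⟩ := H632.SD.exists_g2 hal
  obtain ⟨A, hA, huA, hAn⟩ := H596.exists_room hn
  have hb : Commute (F l f) (π (g * bw w * g⁻¹)) := by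
    rw [← hgl]
    have := com_bw' h.f g w 1 2 f
    rwa [pow_one] at this
  have hun : ∀ s : ℝ, Commute (F l f) (π (g * un s * g⁻¹)) := by
    intro s
    rw [← hgl]
    exact com_un' h.f g s f
  rw [← hga]
  exact emul_poly h (h.f.cm l f) hb hun hA huA 1 (fun R => i1_fin h l hAn R)

/-- **In one leg everything commutes** (one vector, without `inv`). -/
theorem legComm (h : LegS volume w π lam W Ω m q E F) : QP E F ∧
    (∀ a b f g, Commute (E a f) (E b g)) ∧ (∀ a l f h, Commute (E a f) (F l h)) ∧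
    ∀ l l' f g, Commute (F l f) (F l' g) := by
  have h1 := i1 h
  have h2 : ∀ a l, (a, l) ∈ inc3 (k := ℝ) → ∀ f h, Commute (E a f) (F l h) :=
    fun a l hal f g => H613.i2Stmt (E a) (F l) (h1 a l hal) f g
  have hq : QP E F := ⟨h1, h2, h.e.agr, h.f.agr, fun a b l hal hbl u f h' hf hni hd =>
    key H589.KT.njStmt h h1 h2 hal hbl u f h' hf hni hd⟩
  exact ⟨hq, H613.allStmt E F hq⟩

end real

/-! ### A finite family -/

section fam

variable {Γ K ι : Type} [Group Γ] [NormedAddCommGroup K] [InnerProductSpace ℂ K] [CompleteSpace K]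
  [Fintype ι] {w : ℝˣ} {π : G3 ℝ →* (K →L[ℂ] K)} {lam : Γ →* (K →L[ℂ] K)} {W : Set (K →L[ℂ] K)}
  {Ω : ι → K} {m : Set Γ → (K →L[ℂ] K)} {q : Γ →* G3 ℝ}
  {E F : PP ℝ → (CP ℝ →⋆ₐ[ℂ] (K →L[ℂ] K))}

/-- the amplified leg, without `inv` -/
theorem LegF.ampW {k : Type} [NontriviallyNormedField k] [ProperSpace k] [MeasurableSpace k]
    [OpensMeasurableSpace k] {μ : Measure k} {Q : Type} [Group Q] [Fintype Q] {w : kˣ}
    {π : G3 k →* (K →L[ℂ] K)} {q : Γ →* G3 k} {E F : PP k → (CP k →⋆ₐ[ℂ] (K →L[ℂ] K))}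
    (h : LegF μ w π lam W Ω m q E F) (j : ι ↪ Q) :
    LegS μ w (ampH Q π) (ampH Q lam) (ampW Q W) (ampO j Ω)
      (fun S => H333.Amp.amp (Q := Q) (m S)) q (fun a => ampE Q (E a)) (fun a => ampE Q (F a)) where
  hw := h.hw
  pic := h.pic.ampW j
  ms := h.ms.amp j
  inj := h.inj
  disc := h.disc
  uc := uc_amp h.uc j
  orb := orb_amp h.pic.contP h.orb j
  size := size_amp h.size j
  nws := nws_amp h.ms h.nws j
  e := efam_amp h.ms h.e fun g => rfl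
  f := efam_amp h.ms h.f fun g => rfl

theorem unamp_commute {Q : Type} [Group Q] [Fintype Q] {S T : K →L[ℂ] K}
    (h : Commute (H333.Amp.amp (Q := Q) S) (H333.Amp.amp T)) : Commute S T :=
  RC.amp_comm_iff.1 h.eq

/-- **[D] for all amplifications: in one leg everything commutes.** -/
theorem legCommF (h : LegF volume w π lam W Ω m q E F) : QP E F ∧
    (∀ a b f g, Commute (E a f) (E b g)) ∧ (∀ a l f h, Commute (E a f) (F l h)) ∧
    ∀ l l' f g, Commute (F l f) (F l' g) := by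
  obtain ⟨Q, _, _, ⟨j⟩⟩ := RC.exists_emb ι
  obtain ⟨hq, h1, h2, h3⟩ := legComm (LegF.ampW h j)
  refine ⟨⟨fun a l hal u f hn => ?_, fun a l hal f g => ?_, h.e.agr, h.f.agr,
    fun a b l hal hbl u f g hf hni hd => ?_⟩, fun a b f g => ?_, fun a l f g => ?_,
    fun l l' f g => ?_⟩
  · have e1 : H333.Amp.amp (Q := Q) (E a u) * H333.Amp.amp (F l f) = 0 := hq.inc a l hal u f hn
    rw [← H333.Amp.amp_mul] at e1
    exact H333.Amp.amp_inj (e1.trans H333.Amp.amp_zero.symm)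
  · exact unamp_commute (Q := Q) (hq.com a l hal f g)
  · have e1 : H333.Amp.amp (Q := Q) (E a u) * H333.Amp.amp (E b f) * H333.Amp.amp (F l g) = 0 :=
      hq.key a b l hal hbl u f g hf hni hd
    rw [← H333.Amp.amp_mul, ← H333.Amp.amp_mul] at e1
    exact H333.Amp.amp_inj (e1.trans H333.Amp.amp_zero.symm)
  · exact unamp_commute (Q := Q) (h1 a b f g)
  · exact unamp_commute (Q := Q) (h2 a l f g)
  · exact unamp_commute (Q := Q) (h3 l l' f g)

/-- **[D-CLS]** from the fields it uses -/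
theorem cls_of (hP : ∀ g, adjoint (π g) = π g⁻¹) (hc : ∀ ξ, Continuous fun g => π g ξ)
    (he : EFam w π lam W m q E) (hf : EFam w (π.comp (tau ℝ)) lam W m ((tau ℝ).comp q) F)
    (hQ : QP E F) (cEE : ∀ a b f g, Commute (E a f) (E b g))
    (cEF : ∀ a l f h, Commute (E a f) (F l h)) (cFF : ∀ l l' f g, Commute (F l f) (F l' g)) :
    ∃ Q : C₀(G3 ℝ, ℂ) →⋆ₙₐ[ℂ] (K →L[ℂ] K), Cls π lam W q E F Q := by
  have hiso : ∀ g ξ, ‖π g ξ‖ = ‖ξ‖ := by
    intro g v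
    have h1 : ⟪π g v, π g v⟫_ℂ = ⟪v, v⟫_ℂ := by
      rw [← adjoint_inner_right, hP]
      have h2 : π g⁻¹ * π g = 1 := by rw [← map_mul, inv_mul_cancel, map_one]
      have h3 : π g⁻¹ (π g v) = v := congrArg (fun T : K →L[ℂ] K => T v) h2
      rw [h3]
    rw [inner_self_eq_norm_sq_to_K, inner_self_eq_norm_sq_to_K] at h1
    have h2 : ‖π g v‖ ^ 2 = ‖v‖ ^ 2 := by exact_mod_cast h1
    exact (pow_left_inj₀ (norm_nonneg _) (norm_nonneg _) two_ne_zero).mp h2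
  have htt : ∀ h : G3 ℝ, tau ℝ (tau ℝ h) = h := fun h => H632.SD.tau_tau h
  obtain ⟨Q, hq⟩ := H171.clsStmt π E F hiso hc he.pcov (by
    intro g l f
    have := hf.pcov (tau ℝ g) l f
    rw [MonoidHom.comp_apply, MonoidHom.comp_apply, htt, map_inv, htt] at this
    exact this) hQ.inc hQ.agrE hQ.agrF cEE cEF cFF
  have hlam : ∀ γ, lam γ * lam γ⁻¹ = 1 := fun γ => by rw [← map_mul, mul_inv_cancel, map_one]
  have hlam' : ∀ γ, lam γ⁻¹ * lam γ = 1 := fun γ => by rw [← map_mul, inv_mul_cancel, map_one]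
  refine ⟨Q, ⟨hq.nd, ?_, ?_, hq.right, hq.mulE, hq.mulF⟩⟩
  · intro ψ w' hw'
    exact (hq.gen w' (fun a f => (he.cm a f w' hw').symm) ψ).symm
  · intro γ ψ ψ' h
    exact hq.left (q γ) _ _ (hlam γ) (hlam' γ) (fun a f => he.cov γ a f) ψ ψ' h

/-- **[D-CLS] for all amplifications** -/
theorem clsF (h : LegF volume w π lam W Ω m q E F) :
    ∃ Q : C₀(G3 ℝ, ℂ) →⋆ₙₐ[ℂ] (K →L[ℂ] K), Cls π lam W q E F Q := by
  obtain ⟨hq, h1, h2, h3⟩ := legCommF h
  exact cls_of h.pic.adjP h.pic.contP h.e h.f hq h1 h2 h3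

end fam

end Vale.Agent.P092.SD.X
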