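import Vale.Agent.P092.H618.HMI
import Vale.Agent.P092.H962.C.Amp

/-!
P092 (helper34, from helper618's HMK, HMK2, HMI), Team N, block [N-GAPB], all amplifications: the
operators of the positive semidefinite kernel, and `HMIA`, for a picture with a finite family of
vectors (`RC.PicF`).
-/

set_option linter.all false

open scoped InnerProductSpace
open Filter Topology ContinuousLinearMap

namespace Vale.Agent.P092.H34.HMK

open Vale.Agent.P092.H859.CL (Fn Rep PF PF_ap PF_opNorm PF_sym Leg Slow mc PC mul_ap' PC_real mc_real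
  bform_of_total)
open Vale.Agent.P092.H43 (Loc2 key_le)
open Vale.Agent.P092.H325 (WLim exists_ulim)
open Vale.Agent.P092.RC (Pic PicF Moore Cm)
open Vale.Agent.P092.H618.HMK (Psd IsL exists_isL eN aN eN_le aN_le psd_lim cov_E cov_A eN_right KD
  ZN Ker KerG Tests Sc cut_le)
open Vale.Agent.P092.H218.NR (Cut HMIA lm ul ul_eq cut_up)
open Vale.Agent.P092.H761 (Gaps big up)

section main

variable {Γ D K S : Type} [Group Γ] [Group D] [TopologicalSpace D] [Group S] [TopologicalSpace S]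
  [NormedAddCommGroup K] [InnerProductSpace ℂ K] [CompleteSpace K] {π : D →* (K →L[ℂ] K)}
  {lam : Γ →* (K →L[ℂ] K)} {W : Set (K →L[ℂ] K)} {κ : Type} [Fintype κ] {Ω : κ → K} {mp : (Γ → ℝ) → (K →L[ℂ] K)}
  {Bd Bf : Set K} {χ : ℕ → Γ → ℝ} {ε : Γ → Γ → ℝ}

/-- **[HMK], operator part.** -/
theorem exists_kdF (hP : PicF π lam W Ω) (hf : Fn mp)
    (hcov : ∀ γ (F : Γ → ℝ), (∀ g, |F g| ≤ 1) → lam γ * mp F * lam γ⁻¹ = mp (fun g => F (γ⁻¹ * g)))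
    (hWm : ∀ w ∈ W, ∀ F : Γ → ℝ, (∀ g, |F g| ≤ 1) → w * mp F = mp F * w)
    (hd : Dense ((Submodule.span ℂ Bd : Submodule ℂ K) : Set K)) (hn : ∀ ξ ∈ Bd, ‖ξ‖ ≤ 1)
    (hm : ∀ v, ∀ ξ ∈ Bd, π v ξ ∈ Bd) (hsl : Slow mp (fun g => π g) Bd)
    (hL : Loc2 mp (fun g => π g) Bd Bf) (θ : S →* D) (hθ : Continuous θ) (z : ℕ → D)
    (hz : ∀ N s, θ s * z N = z N * θ s) (Nb : Set D) (U : Ultrafilter ℕ)
    (hNb : ∀ n ∈ Nb, Tendsto (fun N => z N * n * (z N)⁻¹) U (𝓝 1))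
    (hNS : ∀ s, ∀ n ∈ Nb, θ s * n * (θ s)⁻¹ ∈ Nb)
    (hχ : ∀ N k, 0 ≤ χ N k ∧ χ N k ≤ 1)
    (hχs : ∀ s u : Γ, ∀ δ : ℝ, 0 < δ → ∀ᶠ N in (U : Filter ℕ), ∀ k,
      |χ N (s * k * u) - χ N k| ≤ δ)
    (hε : Psd ε) (hε1 : ∀ x, ε x x ≤ 1)
    (hRI : ∀ f γ γ' : Γ, ∀ δ : ℝ, 0 < δ → ∀ᶠ N in (U : Filter ℕ), ∀ k, χ N k ≠ 0 →
      |ε (f⁻¹ * k⁻¹ * γ) (f⁻¹ * k⁻¹ * γ') - ε (k⁻¹ * γ) (k⁻¹ * γ')| ≤ δ) :
    ∃ (E : Γ → Γ → (K →L[ℂ] K)) (A : Γ → (K →L[ℂ] K)),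
      KD lam (ZN W π Nb) (π.comp θ) E A ∧
      ∀ (ω : K) h, Tendsto (fun N => (⟪π (z N * θ h) ω,
        mp (fun k => χ N k * ε k⁻¹ 1) (π (z N * θ h) ω)⟫_ℂ).re) U
        (𝓝 (⟪(π.comp θ) h ω, A 1 ((π.comp θ) h ω)⟫_ℂ).re) := by
  have hR : Rep (fun g => π g) := ⟨map_mul π, hP.adjP⟩
  have hLg : Leg mp (fun g => π g) (fun γ => lam γ) W :=
    ⟨map_one π, map_mul lam, map_one lam, hP.comm, hcov, hP.WP, hWm⟩
  choose E hE using fun γ γ' => exists_isL hf hR U z (eN_le hε hε1 hχ γ γ')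
  choose A hA using fun γ => exists_isL hf hR U z (aN_le hε hε1 hχ γ)
  have hEN : ∀ n ∈ Nb, ∀ γ γ', π n * E γ γ' = E γ γ' * π n := fun n hn' γ γ' =>
    ((hE γ γ').slow hf hR hd hm hsl (eN_le hε hε1 hχ γ γ') (hNb n hn')).symm
  have hAN : ∀ n ∈ Nb, ∀ γ, π n * A γ = A γ * π n := fun n hn' γ =>
    ((hA γ).slow hf hR hd hm hsl (aN_le hε hε1 hχ γ) (hNb n hn')).symm
  have hinv : ∀ (n : D) (T : K →L[ℂ] K), π n * T = T * π n → π n⁻¹ * T = T * π n⁻¹ := by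
    intro n T hT
    have e1 : π n⁻¹ * π n = 1 := by rw [← map_mul, inv_mul_cancel, map_one]
    have e2 : π n * π n⁻¹ = 1 := by rw [← map_mul, mul_inv_cancel, map_one]
    calc π n⁻¹ * T = π n⁻¹ * T * (π n * π n⁻¹) := by rw [e2, mul_one]
      _ = π n⁻¹ * (T * π n) * π n⁻¹ := by simp only [mul_assoc]
      _ = π n⁻¹ * (π n * T) * π n⁻¹ := by rw [hT]
      _ = (π n⁻¹ * π n) * T * π n⁻¹ := by simp only [mul_assoc]
      _ = _ := by rw [e1, one_mul]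
  refine ⟨E, A, ⟨fun γ γ' => ?_, psd_lim hf hR hε hε1 hχ hE hA, hP.adjL,
    fun s γ γ' => cov_E hLg hf hR hε hε1 hχ hχs hE s γ γ',
    fun s γ => cov_A hLg hf hR hε hε1 hχ hχs hA s γ, ?_, ?_, ?_, fun g => ?_,
    fun ξ => (hP.contP ξ).comp hθ, fun g γ γ' => ?_, fun g => ?_,
    fun g γ => hP.comm (θ g) γ⟩, fun ω h => ?_⟩
  · rw [(hE γ γ').adj hf hR (eN_le hε hε1 hχ γ γ')]
    refine (hE γ γ').uniq ?_
    have e : eN χ ε γ γ' = eN χ ε γ' γ := by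
      funext N k
      simp only [eN]
      rw [hε.symm]
    rw [e]
    exact hE γ' γ
  · rintro w (hw | ⟨n, hn', rfl⟩)
    · exact Or.inl (hP.Wadj w hw)
    · refine Or.inr ⟨n⁻¹, ?_, hP.adjP n⟩
      rw [inv_inv]
      exact hn'.symm
  · rintro w (hw | ⟨n, hn' | hn', rfl⟩) γ γ'
    · exact (hE γ γ').commW hLg hf hR (eN_le hε hε1 hχ γ γ') hw
    · exact hEN n hn' γ γ'
    · have := hinv n⁻¹ _ (hEN _ hn' γ γ')
      rwa [inv_inv] at this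
  · rintro w (hw | ⟨n, hn' | hn', rfl⟩) γ
    · exact (hA γ).commW hLg hf hR (aN_le hε hε1 hχ γ) hw
    · exact hAN n hn' γ
    · have := hinv n⁻¹ _ (hAN _ hn' γ)
      rwa [inv_inv] at this
  · change adjoint (π (θ g)) = π (θ g⁻¹)
    rw [hP.adjP, map_inv θ]
  · exact (hE γ γ').loc hf hR (fun ξ hξ => hn ξ (hL.sub hξ)) hL (eN_le hε hε1 hχ γ γ')
      (fun N => hz N g) (fun u δ hδ => eN_right hε hε1 hχ hχs hRI γ γ' u hδ)
  · rintro w (hw | ⟨n, hn', rfl⟩)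
    · left
      have := hP.WP w hw (θ g)
      rwa [← map_inv θ] at this
    · right
      refine ⟨θ g * n * (θ g)⁻¹, ?_, ?_⟩
      · rcases hn' with hn' | hn'
        · exact Or.inl (hNS g n hn')
        · right
          have e : (θ g * n * (θ g)⁻¹)⁻¹ = θ g * n⁻¹ * (θ g)⁻¹ := by group
          rw [e]
          exact hNS g _ hn'
      · rw [map_mul, map_mul]
        change π (θ g) * π n * π (θ g⁻¹) = _
        rw [map_inv θ]
  · have h1 := (Complex.continuous_re.tendsto _).comp ((hA 1).coef hR (π (θ h) ω) (π (θ h) ω))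
    refine h1.congr fun N => ?_
    have e1 : π (z N * θ h) ω = π (z N) (π (θ h) ω) := by rw [map_mul]; rfl
    have e2 : (fun k => χ N k * ε k⁻¹ 1) = aN χ ε 1 N := by
      funext k; simp only [aN, mul_one]
    rw [e1, e2]
    rfl

end main

/-- The data of the source: picture, multiplication operators, the group `S` commuting with the
sequence `z`, the contracted set `Nb` and the cut-offs `χ`. -/
structure InpF {Γ D K S κ : Type} [Fintype κ] [Group Γ] [Group D] [TopologicalSpace D] [Group S]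
    [TopologicalSpace S] [NormedAddCommGroup K] [InnerProductSpace ℂ K] [CompleteSpace K]
    (π : D →* (K →L[ℂ] K)) (lam : Γ →* (K →L[ℂ] K)) (W : Set (K →L[ℂ] K)) (Ω : κ → K)
    (mp : (Γ → ℝ) → (K →L[ℂ] K)) (Bd Bf : Set K) (θ : S →* D) (z : ℕ → D) (Nb : Set D)
    (U : Ultrafilter ℕ) (χ : ℕ → Γ → ℝ) : Prop where
  pic : PicF π lam W Ω
  fn : Fn mp
  cov : ∀ γ (F : Γ → ℝ), (∀ g, |F g| ≤ 1) → lam γ * mp F * lam γ⁻¹ = mp (fun g => F (γ⁻¹ * g))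
  Wm : ∀ w ∈ W, ∀ F : Γ → ℝ, (∀ g, |F g| ≤ 1) → w * mp F = mp F * w
  dense : Dense ((Submodule.span ℂ Bd : Submodule ℂ K) : Set K)
  norm : ∀ ξ ∈ Bd, ‖ξ‖ ≤ 1
  map : ∀ v, ∀ ξ ∈ Bd, π v ξ ∈ Bd
  slow : Slow mp (fun g => π g) Bd
  loc : Loc2 mp (fun g => π g) Bd Bf
  cont : Continuous θ
  cz : ∀ N s, θ s * z N = z N * θ s
  con : ∀ n ∈ Nb, Tendsto (fun N => z N * n * (z N)⁻¹) U (𝓝 1)
  nrm : ∀ s, ∀ n ∈ Nb, θ s * n * (θ s)⁻¹ ∈ Nb
  χ01 : ∀ N k, 0 ≤ χ N k ∧ χ N k ≤ 1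
  χs : ∀ s u : Γ, ∀ δ : ℝ, 0 < δ → ∀ᶠ N in (U : Filter ℕ), ∀ k, |χ N (s * k * u) - χ N k| ≤ δ

section main

variable {Γ D K S : Type} [Group Γ] [Group D] [TopologicalSpace D] [Group S] [TopologicalSpace S]
  [NormedAddCommGroup K] [InnerProductSpace ℂ K] [CompleteSpace K] {π : D →* (K →L[ℂ] K)}
  {lam : Γ →* (K →L[ℂ] K)} {W : Set (K →L[ℂ] K)} {κ : Type} [Fintype κ] {Ω : κ → K} {mp : (Γ → ℝ) → (K →L[ℂ] K)}
  {Bd Bf : Set K} {θ : S →* D} {z : ℕ → D} {Nb : Set D} {U : Ultrafilter ℕ}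
  {χ : ℕ → Γ → ℝ} {ε : Γ → Γ → ℝ}

/-- one simple factor -/
theorem sc_ofF (hP : PicF π lam W Ω) (hM : Moore Nb) : Sc π lam W θ Nb := by
  intro T h1 h2 g
  obtain ⟨c, rfl⟩ := hP.erg Nb hM T (fun w hw => h2 w (Or.inl hw)) h1
    (fun n hn => h2 _ (Or.inr ⟨n, Or.inl hn, rfl⟩))
  rw [smul_mul_assoc, mul_smul_comm, one_mul, mul_one]

/-- **[HMK]**, general form. -/
theorem InpF.lim [IsTopologicalGroup S] (h : InpF π lam W Ω mp Bd Bf θ z Nb U χ)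
    (hS : H933.HoweMoore S) (hsc : Sc π lam W θ Nb) (hk : Ker U χ ε) (ω : K) :
    ∃ m : S → ℝ, (∀ s, Tendsto (fun N => (⟪π (z N * θ s) ω,
      mp (fun k => χ N k * ε k⁻¹ 1) (π (z N * θ s) ω)⟫_ℂ).re) U (𝓝 (m s))) ∧
      ∃ c : ℝ, Tendsto m (cocompact S) (𝓝 c) := by
  obtain ⟨E, A, hK, hc⟩ := exists_kdF h.pic h.fn h.cov h.Wm h.dense h.norm h.map h.slow h.loc θ
    h.cont z h.cz Nb U h.con h.nrm h.χ01 h.χs hk.psd hk.le hk.ri
  obtain ⟨c, h1⟩ := H729.Krn.krn_lim' hS E A hK.herm hK.psd lam hK.ladj hK.covE hK.covA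
    (ZN W π Nb) hK.Zadj hK.ZE hK.ZA (π.comp θ) hK.radj hK.rcont hK.rE hK.rZ hK.rlam hsc ω
  exact ⟨_, hc ω, c.re, (Complex.continuous_re.tendsto _).comp h1⟩

/-- **[HMK]** for finite linear combinations `F k = ∑ c_i ε_i(k⁻¹, 1)`. -/
theorem InpF.lim_sum [IsTopologicalGroup S] (h : InpF π lam W Ω mp Bd Bf θ z Nb U χ)
    (hS : H933.HoweMoore S) (hsc : Sc π lam W θ Nb) {ι : Type} (I : Finset ι) (c : ι → ℝ)
    {ε : ι → Γ → Γ → ℝ} (hk : ∀ i, Ker U χ (ε i)) {F : Γ → ℝ}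
    (hF : ∀ k, F k = ∑ i ∈ I, c i * ε i k⁻¹ 1) (ω : K) :
    ∃ m : S → ℝ, (∀ s, Tendsto (fun N => (⟪π (z N * θ s) ω,
      mp (fun k => χ N k * F k) (π (z N * θ s) ω)⟫_ℂ).re) U (𝓝 (m s))) ∧
      ∃ a : ℝ, Tendsto m (cocompact S) (𝓝 a) := by
  choose m hm1 a ha using fun i => h.lim hS hsc (hk i) ω
  refine ⟨fun s => ∑ i ∈ I, c i * m i s, fun s => ?_, ∑ i ∈ I, c i * a i,
    tendsto_finset_sum _ fun i _ => (ha i).const_mul (c i)⟩
  have h1 := tendsto_finset_sum I fun i _ => (hm1 i s).const_mul (c i)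
  refine h1.congr fun N => ?_
  have hb : ∀ i k, |χ N k * ε i k⁻¹ 1| ≤ 1 := fun i k =>
    cut_le h.χ01 ((hk i).psd.abs_le (hk i).le _ _) N k
  have e1 : (fun k => χ N k * F k) = fun k => ∑ i ∈ I, c i * (χ N k * ε i k⁻¹ 1) := by
    funext k
    rw [hF, Finset.mul_sum]
    exact Finset.sum_congr rfl fun i _ => by ring
  have e2 : ∀ i k, |c i * (χ N k * ε i k⁻¹ 1)| ≤ |c i| * 1 := fun i k => by
    rw [abs_mul]
    exact mul_le_mul_of_nonneg_left (hb i k) (abs_nonneg _)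
  rw [e1, h.fn.sum I e2, ContinuousLinearMap.sum_apply, inner_sum, Complex.re_sum]
  refine Finset.sum_congr rfl fun i _ => ?_
  rw [h.fn.smul (c i) (hb i), smul_apply, inner_smul_right, Complex.re_ofReal_mul]

end main

/-- The source data without cut-offs. -/
structure BaseF {Γ D K S κ : Type} [Fintype κ] [Group Γ] [Group D] [TopologicalSpace D] [Group S]
    [TopologicalSpace S] [NormedAddCommGroup K] [InnerProductSpace ℂ K] [CompleteSpace K]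
    (π : D →* (K →L[ℂ] K)) (lam : Γ →* (K →L[ℂ] K)) (W : Set (K →L[ℂ] K)) (Ω : κ → K)
    (mp : (Γ → ℝ) → (K →L[ℂ] K)) (Bd Bf : Set K) (θ : S →* D) (z : ℕ → D) (Nb : Set D) :
    Prop where
  pic : PicF π lam W Ω
  fn : Fn mp
  cov : ∀ γ (F : Γ → ℝ), (∀ g, |F g| ≤ 1) → lam γ * mp F * lam γ⁻¹ = mp (fun g => F (γ⁻¹ * g))
  Wm : ∀ w ∈ W, ∀ F : Γ → ℝ, (∀ g, |F g| ≤ 1) → w * mp F = mp F * w
  dense : Dense ((Submodule.span ℂ Bd : Submodule ℂ K) : Set K)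
  norm : ∀ ξ ∈ Bd, ‖ξ‖ ≤ 1
  map : ∀ v, ∀ ξ ∈ Bd, π v ξ ∈ Bd
  slow : Slow mp (fun g => π g) Bd
  loc : Loc2 mp (fun g => π g) Bd Bf
  cont : Continuous θ
  cz : ∀ N s, θ s * z N = z N * θ s
  con : ∀ n ∈ Nb, Tendsto (fun N => z N * n * (z N)⁻¹) atTop (𝓝 1)
  nrm : ∀ s, ∀ n ∈ Nb, θ s * n * (θ s)⁻¹ ∈ Nb

section hmi

variable {Γ D K S J : Type} [Group Γ] [Group D] [TopologicalSpace D] [Group S] [TopologicalSpace S]
  [NormedAddCommGroup K] [InnerProductSpace ℂ K] [CompleteSpace K] {π : D →* (K →L[ℂ] K)}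
  {lam : Γ →* (K →L[ℂ] K)} {W : Set (K →L[ℂ] K)} {κ : Type} [Fintype κ] {Ω : κ → K}
  {mp : (Γ → ℝ) → (K →L[ℂ] K)}
  {Bd Bf : Set K} {θ : S →* D} {z : ℕ → D} {Nb : Set D} {U : Ultrafilter ℕ}
  {χ : ℕ → Γ → ℝ} {ε : Γ → Γ → ℝ} [Fintype J] [DecidableEq J] {r : ℕ} {gap : J → Γ → ℝ}
  {cl : J → Fin r} {A : Finset (Fin r)} {i₀ : J} {mass : D → (Γ → ℝ) → ℝ}

theorem BaseF.inp (h : BaseF π lam W Ω mp Bd Bf θ z Nb) (hU : (U : Filter ℕ) ≤ atTop)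
    (hC : Cut gap i₀ U χ) : InpF π lam W Ω mp Bd Bf θ z Nb U χ where
  pic := h.pic
  fn := h.fn
  cov := h.cov
  Wm := h.Wm
  dense := h.dense
  norm := h.norm
  map := h.map
  slow := h.slow
  loc := h.loc
  cont := h.cont
  cz := h.cz
  con n hn := (h.con n hn).mono_left hU
  nrm := h.nrm
  χ01 := hC.mem
  χs s u δ hδ := hC.slow s u δ hδ

/-- **(I4)**, family form: the mass is a finite sum over any vectors `ω i`. -/
theorem BaseF.hmia [IsTopologicalGroup S] (h : BaseF π lam W Ω mp Bd Bf θ z Nb)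
    (hS : H933.HoweMoore S) (hsc : Sc π lam W θ Nb) (hg : Gaps gap cl) {κ' : Type} [Fintype κ']
    (ω : κ' → K) (c : ℝ)
    (hmass : ∀ g (F : Γ → ℝ), (∀ x, |F x| ≤ 1) →
      mass g F = c * ∑ i, (⟪π g (ω i), mp F (π g (ω i))⟫_ℂ).re)
    (hT : Tests gap cl A i₀) : HMIA mass gap cl A i₀ z θ (cocompact S) := by
  intro U hU τ hτ0 hτ ε hε R0
  obtain ⟨ι, I, e, κ₀, F, hκ, hF, hF01, hF1, hF2⟩ := hT ε hε R0
  have hC := cut_up hg i₀ (U := U) hτ0 (hτ.mono_left hU)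
  choose m hm a ha using fun i => (h.inp hU hC).lim_sum hS hsc I e (fun i => (hκ i).ker hC) hF (ω i)
  refine ⟨F, hF01, hF1, hF2, c * ∑ i, a i,
    ((tendsto_finset_sum _ fun i _ => ha i).const_mul c).congr fun s => ?_⟩
  have h1 := (tendsto_finset_sum Finset.univ fun i _ => hm i s).const_mul c
  refine (ul_eq (h1.congr fun N => ?_)).symm
  rw [hmass]
  intro x
  have h1 := hC.mem N x
  have h2 := hF01 x
  rw [abs_of_nonneg (mul_nonneg h1.1 h2.1)]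
  exact mul_le_one₀ h1.2 h2.1 h2.2

end hmi

end Vale.Agent.P092.H34.HMK
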