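import Vale.Agent.P092.H34.X.BaseT
import Vale.Agent.P092.H618.S2.MooreF

/-!
P092 (helper34, from helper618's HmiG and HmiF), Teams N and P, [CL-POS], all amplifications: `HMIA`
for the honest family and an arbitrary source group: `ι₁ : G₁ → E`, `b ∈ G₁`, a Howe-Moore group
`S → Z(b)`, contracted group `Ctr b` with the Moore property in `G₁`.
-/

set_option linter.all false

open scoped InnerProductSpace ENNReal
open Filter Topology ContinuousLinearMap MeasureTheory TopologicalSpace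

namespace Vale.Agent.P092.H34.HMK

open Vale.Agent.P092.SR Vale.Agent.P092.H160
open Vale.Agent.P092.RC (PicF Moore)
open Vale.Agent.P092.H218.NR (HMIA)
open Vale.Agent.P092.H761 (Gaps)
open Vale.Agent.P092.H21 (Hon mT WT)
open Vale.Agent.P092.SNT (TVEF)
open Vale.Agent.P092.H368.SN (Ctr)
open Vale.Agent.P092.H307.Gb (con_ctr nrm_ctr)
open Vale.Agent.P092.H618.HMK (Tests)
open Vale.Agent.P092.H15 (HMG)
open Vale.Agent.P092.H303 (Idx hyp FormGroup)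
open Vale.Agent.P092.H618.MooreF (tor tor_inv moore_tor moore_tor_inv)

section fam

variable {E : Type} [Group E] [TopologicalSpace E] [IsTopologicalGroup E] [LocallyCompactSpace E]
  [SecondCountableTopology E] [T2Space E] [MeasurableSpace E] [BorelSpace E]
  {Γ : Subgroup E} [DiscreteTopology Γ] [Countable Γ] [MeasurableSpace (E ⧸ Γ)]
  [BorelSpace (E ⧸ Γ)] {ν : Measure (E ⧸ Γ)} [IsProbabilityMeasure ν]
  (hν : ∀ g : E, ν.map (fun x => g • x) = ν)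
  {κ κ' ℋ : Type} [Fintype κ] [Fintype κ'] [NormedAddCommGroup ℋ] [InnerProductSpace ℂ ℋ]
  [CompleteSpace ℋ] {V R₁ R₂ : Γ →* (ℋ →L[ℂ] ℋ)} {ξ : κ → ℋ} {ξ' : κ' → ℋ}
  (hT : Tri V R₁ R₂ ξ) (hh : Hon R₁ R₂ ξ) (hT' : Tri R₁ V R₂ ξ')
  (hΓ : ∀ g : Γ, g ≠ 1 → Set.Infinite {y : Γ | ∃ h, y = h * g * h⁻¹})
  {κ₀ : Type} [Fintype κ₀] {Ω : κ₀ → Lp ℋ 2 (H85.cdat ν hν).μ}
  (pic : PicF (H34.Ind.pi (H85.cdat ν hν) (V := V) hT.adjV) (H34.Ind.lam (H85.cdat ν hν) R₁)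
    (WT (H85.cdat ν hν) R₂) Ω)
  (htv : TVEF (H34.Ind.pi (H85.cdat ν hν) (V := V) hT.adjV) (H34.Ind.lam (H85.cdat ν hν) R₁)
    (WT (H85.cdat ν hν) R₂) Ω)

include hh hT' hΓ pic htv

section gen

variable {G₁ S : Type} [Group G₁] [TopologicalSpace G₁] [IsTopologicalGroup G₁] [Group S]
  [TopologicalSpace S] [IsTopologicalGroup S] {ι₁ : G₁ →* E} {θ₁ : S →* G₁}

/-- **HMIA, any source group, all `t`.** -/
theorem hmiT_gen (hι : Continuous ι₁) (hθ : Continuous θ₁) (hS : H933.HoweMoore S) {b : G₁}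
    (hb : ∀ s, Commute (θ₁ s) b) (hM : Moore (Ctr b))
    {J : Type} [Fintype J] [DecidableEq J] {r : ℕ} {gap : J → Γ → ℝ} {cl : J → Fin r}
    {A : Finset (Fin r)} {i₀ : J} (hg : Gaps gap cl) (hTs : Tests gap cl A i₀) :
    HMIA (mX hν hT) gap cl A i₀ (fun n => ι₁ b ^ n) (ι₁.comp θ₁) (cocompact S) := by
  have hB := baseT hν hT hh hT' hΓ pic (θ := ι₁.comp θ₁) (hι.comp hθ) (z := fun n => ι₁ b ^ n)
    (fun N s => by
      have h1 : Commute (ι₁ (θ₁ s)) (ι₁ b) := (hb s).map ι₁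
      exact (h1.pow_right N).eq) (Nb := ι₁ '' Ctr b)
    (by
      rintro _ ⟨n, hn, rfl⟩
      have h1 := (hι.tendsto 1).comp (con_ctr b n hn)
      rw [map_one] at h1
      refine h1.congr fun N => ?_
      change ι₁ (b ^ N * n * (b ^ N)⁻¹) = _
      rw [map_mul, map_mul, map_inv, map_pow])
    (by
      rintro s _ ⟨n, hn, rfl⟩
      refine ⟨_, nrm_ctr (hb s) hn, ?_⟩
      rw [map_mul, map_mul, map_inv]
      rfl)
  exact hB.hmia hS (sc_genF pic htv hι hM) hg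
    (fun i => Lp.const 2 (H85.cdat ν hν).μ (ξ i)) 1
    (fun g F hF => by rw [one_mul]; exact mX_fam hν hT hh hT' hΓ g hF) hTs

/-- the same along the powers of `b⁻¹` -/
theorem hmiT_gen_inv (hι : Continuous ι₁) (hθ : Continuous θ₁) (hS : H933.HoweMoore S) {b : G₁}
    (hb : ∀ s, Commute (θ₁ s) b) (hM : Moore (Ctr b⁻¹))
    {J : Type} [Fintype J] [DecidableEq J] {r : ℕ} {gap : J → Γ → ℝ} {cl : J → Fin r}
    {A : Finset (Fin r)} {i₀ : J} (hg : Gaps gap cl) (hTs : Tests gap cl A i₀) :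
    HMIA (mX hν hT) gap cl A i₀ (fun n => (ι₁ b)⁻¹ ^ n) (ι₁.comp θ₁) (cocompact S) := by
  have h := hmiT_gen hν hT hh hT' hΓ pic htv hι hθ hS (b := b⁻¹) (fun s => (hb s).inv_right) hM
    hg hTs
  rwa [map_inv] at h

end gen

section tor

variable {k : Type} [NontriviallyNormedField k] {ι : Type} [Fintype ι] [DecidableEq ι] {q : ℕ}
  {σ : k →+* k} {ε : k} {J₀ : Matrix ι ι k}
  {S : Type} [Group S] [TopologicalSpace S] [IsTopologicalGroup S]
  {φ : FormGroup σ (hyp q ε J₀) →* E}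
  {θ : S →* FormGroup σ (hyp q ε J₀)}

/-- **HMIA along the powers of a diagonal element, all `t`.** -/
theorem hmiT_tor (hφ : Continuous φ) (hθ : Continuous θ) (hS : H933.HoweMoore S)
    (hG : HMG (FormGroup σ (hyp q ε J₀))) (hσc : Continuous σ) (hσ : ∀ x, σ (σ x) = x)
    (hε : ε * σ ε = 1) (hq : 2 ≤ q) {w : k} (hw : w ≠ 0) (hw1 : ‖w‖ ≠ 1) (hσw : σ w = w)
    {l : Fin q → ℤ} (hl : l ≠ 0) (hb : ∀ s, Commute (θ s) (tor q σ ε J₀ hw hσw l))
    {J : Type} [Fintype J] [DecidableEq J] {r : ℕ} {gap : J → Γ → ℝ} {cl : J → Fin r}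
    {A : Finset (Fin r)} {i₀ : J} (hg : Gaps gap cl) (hTs : Tests gap cl A i₀) :
    HMIA (mX hν hT) gap cl A i₀ (fun n => φ (tor q σ ε J₀ hw hσw l) ^ n) (φ.comp θ)
      (cocompact S) :=
  hmiT_gen hν hT hh hT' hΓ pic htv hφ hθ hS hb (moore_tor hG hσc hσ hε hq hw hw1 hσw hl) hg hTs

/-- **The same along the powers of the inverse.** -/
theorem hmiT_tor_inv (hφ : Continuous φ) (hθ : Continuous θ) (hS : H933.HoweMoore S)
    (hG : HMG (FormGroup σ (hyp q ε J₀))) (hσc : Continuous σ) (hσ : ∀ x, σ (σ x) = x)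
    (hε : ε * σ ε = 1) (hq : 2 ≤ q) {w : k} (hw : w ≠ 0) (hw1 : ‖w‖ ≠ 1) (hσw : σ w = w)
    {l : Fin q → ℤ} (hl : l ≠ 0) (hb : ∀ s, Commute (θ s) (tor q σ ε J₀ hw hσw l))
    {J : Type} [Fintype J] [DecidableEq J] {r : ℕ} {gap : J → Γ → ℝ} {cl : J → Fin r}
    {A : Finset (Fin r)} {i₀ : J} (hg : Gaps gap cl) (hTs : Tests gap cl A i₀) :
    HMIA (mX hν hT) gap cl A i₀ (fun n => (φ (tor q σ ε J₀ hw hσw l))⁻¹ ^ n) (φ.comp θ)
      (cocompact S) :=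
  hmiT_gen_inv hν hT hh hT' hΓ pic htv hφ hθ hS hb
    (moore_tor_inv hG hσc hσ hε hq hw hw1 hσw hl) hg hTs

end tor

end fam

end Vale.Agent.P092.H34.HMK
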