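import Vale.Agent.P092.H34.X.BaseT
import Vale.Agent.P092.H307.Gb.Inst
import Vale.Agent.P092.H411.ChS

/-!
P092 (helper34, from helper618's Hmi), Team N, [N-GAPB], all amplifications: `HMIA` for the honest
family, any source group `E` with a factor `ι : SL_(m+2)(k) → E`.
-/

set_option linter.all false

open scoped InnerProductSpace ENNReal
open Filter Topology ContinuousLinearMap MeasureTheory TopologicalSpace

namespace Vale.Agent.P092.H34.HMK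

open Vale.Agent.P092.SR Vale.Agent.P092.H160
open Vale.Agent.P092.RC (PicF Moore GG PG ct)
open Vale.Agent.P092.SN (nm PH bw)
open Vale.Agent.P092.H933 (LocK)
open Vale.Agent.P092.H761 (SharpData GChain big mem_big Geo Gaps)
open Vale.Agent.P092.H218.NR (HMIA)
open Vale.Agent.P092.H21 (Hon mT WT)
open Vale.Agent.P092.SNT (TVEF)
open Vale.Agent.P092.H411.Blk (blk continuous_blk)
open Vale.Agent.P092.H411.ChS (sg sg_cont)
open Vale.Agent.P092.H307.Gb (con_ctr nrm_ctr moore_ctr_sl moore_ctr_sl_inv bw_comm_blk)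
open Vale.Agent.P092.H618.HMK (Tests)

/-! ### `HMIA` for the honest family -/

section fam

variable {k : Type} [NontriviallyNormedField k] [ProperSpace k] {m : ℕ}
  {E : Type} [Group E] [TopologicalSpace E] [IsTopologicalGroup E] [LocallyCompactSpace E]
  [SecondCountableTopology E] [T2Space E] [MeasurableSpace E] [BorelSpace E]
  {Γ : Subgroup E} [DiscreteTopology Γ] [Countable Γ] [MeasurableSpace (E ⧸ Γ)]
  [BorelSpace (E ⧸ Γ)] {ν : Measure (E ⧸ Γ)} [IsProbabilityMeasure ν]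
  (hν : ∀ g : E, ν.map (fun x => g • x) = ν)
  {κ κ' ℋ : Type} [Fintype κ] [Fintype κ'] [NormedAddCommGroup ℋ] [InnerProductSpace ℂ ℋ]
  [CompleteSpace ℋ] {V R₁ R₂ : Γ →* (ℋ →L[ℂ] ℋ)} {ξ : κ → ℋ} {ξ' : κ' → ℋ}
  (hT : Tri V R₁ R₂ ξ) (hh : Hon R₁ R₂ ξ) (hT' : Tri R₁ V R₂ ξ')
  (hΓ : ∀ g : Γ, g ≠ 1 → Set.Infinite {y : Γ | ∃ h, y = h * g * h⁻¹})
  {κ₀ : Type} [Fintype κ₀] {Ω : κ₀ → Lp ℋ 2 (H85.cdat ν hν).μ}
  (pic : PicF (H34.Ind.pi (H85.cdat ν hν) (V := V) hT.adjV) (H34.Ind.lam (H85.cdat ν hν) R₁)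
    (WT (H85.cdat ν hν) R₂) Ω)
  (htv : TVEF (H34.Ind.pi (H85.cdat ν hν) (V := V) hT.adjV) (H34.Ind.lam (H85.cdat ν hν) R₁)
    (WT (H85.cdat ν hν) R₂) Ω)
  {ι : GG k (m + 1) →* E}

include hh hT' hΓ pic htv

/-- **HMIA, general form.** `z₀` and `N₀` are given in `SL_(m+2)(k)`. -/
theorem hmiT_of (hk : LocK k) (hm : 1 ≤ m) (hι : Continuous ι) {z₀ : ℕ → GG k (m + 1)}
    (hz₀ : ∀ N s, blk k (m + 1) s * z₀ N = z₀ N * blk k (m + 1) s) {N₀ : Set (GG k (m + 1))}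
    (con₀ : ∀ n ∈ N₀, Tendsto (fun N => z₀ N * n * (z₀ N)⁻¹) atTop (𝓝 1))
    (nrm₀ : ∀ s, ∀ n ∈ N₀, blk k (m + 1) s * n * (blk k (m + 1) s)⁻¹ ∈ N₀) (hM : Moore N₀)
    {J : Type} [Fintype J] [DecidableEq J] {r : ℕ} {gap : J → Γ → ℝ} {cl : J → Fin r}
    {A : Finset (Fin r)} {i₀ : J} (hg : Gaps gap cl) (hTs : Tests gap cl A i₀) :
    HMIA (mX hν hT) gap cl A i₀ (fun n => ι (z₀ n)) (sg ι) (cocompact (GG k m)) := by
  have hB := baseT hν hT hh hT' hΓ pic (θ := sg ι) (sg_cont hι) (z := fun n => ι (z₀ n))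
    (fun N s => by
      change ι (blk k (m + 1) s) * ι (z₀ N) = ι (z₀ N) * ι (blk k (m + 1) s)
      rw [← map_mul, hz₀, map_mul]) (Nb := ι '' N₀)
    (by
      rintro _ ⟨n, hn, rfl⟩
      have h1 := (hι.tendsto 1).comp (con₀ n hn)
      rw [map_one] at h1
      refine h1.congr fun N => ?_
      change ι (z₀ N * n * (z₀ N)⁻¹) = _
      rw [map_mul, map_mul, map_inv])
    (by
      rintro s _ ⟨n, hn, rfl⟩
      refine ⟨_, nrm₀ s n hn, ?_⟩
      rw [map_mul, map_mul, map_inv]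
      rfl)
  exact hB.hmia (H933.hm_sl hk (by omega)) (sc_genF pic htv hι hM) hg
    (fun i => Lp.const 2 (H85.cdat ν hν).μ (ξ i)) 1
    (fun g F hF => by rw [one_mul]; exact mX_fam hν hT hh hT' hΓ g hF) hTs

/-- **HMIA**, `b = ι (bw w)`. -/
theorem hmiT_A (hk : LocK k) (hm : 1 ≤ m) (hι : Continuous ι) {w : kˣ} (hw : ‖(w : k)‖ < 1)
    {J : Type} [Fintype J] [DecidableEq J] {r : ℕ} {gap : J → Γ → ℝ} {cl : J → Fin r}
    {A : Finset (Fin r)} {i₀ : J} (hg : Gaps gap cl) (hTs : Tests gap cl A i₀) :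
    HMIA (mX hν hT) gap cl A i₀ (fun n => ι (bw w) ^ n) (sg ι) (cocompact (GG k m)) := by
  have h := hmiT_of hν hT hh hT' hΓ pic htv hk hm hι (z₀ := fun n => (bw w : GG k (m + 1)) ^ n)
    (fun N s => ((bw_comm_blk w s).pow_left N).symm.eq) (con_ctr (bw w))
    (fun s n hn => nrm_ctr (bw_comm_blk w s).symm hn) (moore_ctr_sl hk (by omega) hw) hg hTs
  have e : (fun n : ℕ => ι ((bw w : GG k (m + 1)) ^ n)) = fun n => ι (bw w) ^ n :=
    funext fun n => map_pow ι _ n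
  rwa [e] at h

/-- **HMIA**, `b = (ι (bw w))⁻¹`. -/
theorem hmiT_inv (hk : LocK k) (hm : 1 ≤ m) (hι : Continuous ι) {w : kˣ} (hw : ‖(w : k)‖ < 1)
    {J : Type} [Fintype J] [DecidableEq J] {r : ℕ} {gap : J → Γ → ℝ} {cl : J → Fin r}
    {A : Finset (Fin r)} {i₀ : J} (hg : Gaps gap cl) (hTs : Tests gap cl A i₀) :
    HMIA (mX hν hT) gap cl A i₀ (fun n => (ι (bw w))⁻¹ ^ n) (sg ι) (cocompact (GG k m)) := by
  have h := hmiT_of hν hT hh hT' hΓ pic htv hk hm hι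
    (z₀ := fun n => ((bw w : GG k (m + 1))⁻¹) ^ n)
    (fun N s => (((bw_comm_blk w s).inv_left).pow_left N).symm.eq) (con_ctr (bw w)⁻¹)
    (fun s n hn => nrm_ctr ((bw_comm_blk w s).symm.inv_right) hn)
    (moore_ctr_sl_inv hk (by omega) hw) hg hTs
  have e : (fun n : ℕ => ι (((bw w : GG k (m + 1))⁻¹) ^ n)) = fun n => (ι (bw w))⁻¹ ^ n :=
    funext fun n => by rw [map_pow, map_inv]
  rwa [e] at h

end fam

end Vale.Agent.P092.H34.HMK
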