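import Vale.Agent.P092.H34.X.NC
import Vale.Agent.P092.H68.Nj3K

/-!
P092, TEAM N, all amplifications (helper34): `SN.X.KeyStmt` from `NJBStmt` and from `NJB3Stmt`
(proofs of helper124 and helper68).
-/

set_option linter.all false

open scoped InnerProductSpace ENNReal LinearAlgebra.Projectivization Matrix
open Filter Topology ContinuousLinearMap MeasureTheory TopologicalSpace

namespace Vale.Agent.P092.H34.XN

open Vale.Agent.P092.SN
open Vale.Agent.P092.SD (Ms UC)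
open Vale.Agent.P092.RC (Cm TRN Moore GG PG YY y0 ct)
open Vale.Agent.P092.H790.CTA (ORBG SIZEG)
open Vale.Agent.P092.H100.Gr (Gr)
open Vale.Agent.P092.H644.Gr3 (p1 hyp)
open Vale.Agent.P092.H124.KL hiding key_one keyStmt

section key

variable {k : Type} [NontriviallyNormedField k] [ProperSpace k] [MeasurableSpace k] [BorelSpace k]
  {μ : Measure k} [IsFiniteMeasureOnCompacts μ] [μ.IsOpenPosMeasure]
  {N : ℕ} {E Γ K : Type} [Group E] [TopologicalSpace E] [Group Γ] [NormedAddCommGroup K]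
  [InnerProductSpace ℂ K] [CompleteSpace K] {w : kˣ} {ι : GG k N →* E}
  {a a' : E →* PG k (N + 1)} {π : E →* (K →L[ℂ] K)} {lam : Γ →* (K →L[ℂ] K)}
  {W : Set (K →L[ℂ] K)} {Ω : K} {m : Set Γ → (K →L[ℂ] K)} {q : Γ → GG k N} {Z : ℝ → Set Γ}
  {Ec F : YY k N → (CY k N →⋆ₐ[ℂ] (K →L[ℂ] K))}
  {G : ∀ j, Gr k (Fin (N + 1)) j → (CG k N j →⋆ₐ[ℂ] (K →L[ℂ] K))}

/-- **KEY for one leg and one middle function `g ∈ D`** -/
theorem key_one (h : X.LegN μ w ι a a' π lam W Ω m q Z Ec F) (hG : CalN ι π lam W q Ec F G)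
    {C : Gr k (Fin (N + 1)) N} {l : Gr k (Fin (N + 1)) 2} {b : Gr k (Fin (N + 1)) 1}
    (hbC : b.1 ≤ C.1) (hlC : ¬ l.1 ≤ C.1) {u : CG k N N} {g : CG k N 2} {f : CG k N 1}
    (hni : H232.Nin H218.NC.In f u)
    (hNJ : ∀ (R : ℝ) (A : Set (YY k N)), (∀ M ∈ closure A, ∀ x ∈ tsupport f, ¬ x.1 ≤ (hyp M).1) →
      ∃ T > 0, ∃ (c : ℝ) (d : ℕ), ∀ J : ℝ, 0 ≤ J → ∀ S : Finset Γ,
        (∀ γ ∈ S, γ ∈ NWA (fun γ => ct (q γ)) Z R T A ∧ Real.log (nm (ct (q γ))) ≤ J) →
        ∀ ξ : K, ∑ γ ∈ S, ‖G 1 b (actG (q γ)⁻¹ f) (G 2 l (actG (q γ)⁻¹ g) ξ)‖ ^ 2 ≤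
          c * (1 + J) ^ d * ‖ξ‖ ^ 2) :
    G N C u * (G 2 l (star g) * G 1 b (star f)) = 0 := by
  haveI : IsTopologicalGroup E := h.adm.tg
  have hN2 : 2 ≤ N := h.adm.hN
  have hN1 : 1 ≤ N := by omega
  have h01 : (0 : Fin (N + 1)) ≠ 1 := by
    obtain ⟨m', rfl⟩ : ∃ m', N = m' + 1 := ⟨N - 1, by omega⟩
    exact Fin.zero_ne_one
  have hP := picL h.pic
  obtain ⟨g₀, hgC, hgl⟩ := exists_std hN1 C l hlC
  obtain ⟨A, hA, huA, hAf⟩ := exists_open hni
  obtain ⟨ρ, hρ, hρ1, horb⟩ := h.orb' h01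
  have hCx : C = hyp (ct g₀ • (y0 : YY k N)) := by rw [hyp_ct, hyp_y0, hgC]
  have hconj : ∀ β : GG k N, ι g₀ * ι β * (ι g₀)⁻¹ = ι (g₀ * β * g₀⁻¹) := by
    intro β
    rw [map_mul, map_mul, map_inv]
  have hcomm : ∀ β : GG k N, Fx β →
      Commute (G 2 l (star g) * G 1 b (star f)) (π (ι g₀ * ι β * (ι g₀)⁻¹)) := by
    intro β hβ
    obtain ⟨e1, e2⟩ := hβ.conj hN1 hgC hgl
    rw [hconj]
    exact Commute.mul_left (commute_fix hG (by omega) hN2 e1 _)
      (commute_fix hG le_rfl hN1 (e2 b hbC) _)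
  have hCm : Cm W (G 2 l (star g) * G 1 b (star f)) := fun w' hw' => by
    rw [mul_assoc, hG.cm 1 le_rfl hN1 b (star f) w' hw', ← mul_assoc,
      hG.cm 2 (by omega) hN2 l (star g) w' hw', mul_assoc]
  refine zero_of_count (μ := μ) (b := ι (ct (bw w))) (n := fun s : k => ι (ct (un h01 s))) (ρ := ρ)
    (sz := fun γ => nm (ct (q γ))) (g := ι g₀) (c := ‖fh u‖)
    (NA := fun R T => NWA (fun γ => ct (q γ)) Z R T A) hP h.ms h.uc hρ hρ1 ?_ horb
    (size_trans h.ph) (fun γ => nm_pos _) h.size' hCm (hcomm _ (fx_bw w))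
    (fun s => hcomm _ (fx_un h01 s)) ?_ ?_
  · have h1 : Continuous fun s : k => ι (ct (un h01 s : GG k N)) :=
      h.adm.cι.comp (ct_continuous.comp (un_continuous h01))
    have h2 := h1.tendsto 0
    rw [un_zero, map_one, map_one] at h2
    exact h2
  · intro ζ ε hε
    obtain ⟨R, hR⟩ := h.f.dom (ct g₀) (fh u) A hA huA ζ ε hε
    refine ⟨R, fun T hT => (hR T hT).mono fun t ht => ?_⟩
    rw [hCx, hG.top]
    have e1 : (ι.comp ct) (ct g₀ * bw w ^ t * (ct g₀)⁻¹) =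
        ι g₀ * ι (ct (bw w)) ^ t * (ι g₀)⁻¹ := by
      rw [map_mul, map_mul, map_pow, map_inv, MonoidHom.comp_apply, MonoidHom.comp_apply, ct_ct]
    rw [e1] at ht
    exact ht
  · intro R
    obtain ⟨T, hT, c, d, hc⟩ := hNJ R A hAf
    refine ⟨T, hT, c, d, fun J hJ S hS => ?_⟩
    have h2 := hc J hJ S hS Ω
    rw [h.pic.nΩ, one_pow, mul_one] at h2
    refine le_trans (le_of_eq ?_) h2
    refine Finset.sum_congr rfl fun γ _ => ?_
    congr 1
    exact norm_adj' (H790.CT.lam_norm hP) (fun γ f => cov_inv hG le_rfl hN1 b γ f)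
      (fun γ f => cov_inv hG (by omega) hN2 l γ f) f g γ

/-- **[N-KL]**: `KeyStmt` from `NJBStmt` -/
theorem keyStmt (hNJ : NJBStmt k) : X.KeyStmt k μ := by
  intro N E Γ K _ _ _ _ _ _ w ι a a' π lam W Ω m q Z Ec F G h hG C l b hbC hlC hbl u g f hni
  have hN2 : 2 ≤ N := h.adm.hN
  have hN1 : 1 ≤ N := by omega
  obtain ⟨D, hD, hK⟩ := hNJ hN2
  -- the point `z` and the line `ν`
  let z : Gr k (Fin (N + 1)) 1 := ⟨C.1 ⊓ l.1, finrank_inf C.2 l.2 hlC⟩
  have hzl : z.1 ≤ l.1 := inf_le_right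
  have hbz : ¬ b.1 ≤ z.1 := fun e => hbl (e.trans hzl)
  let ν : Gr k (Fin (N + 1)) 2 := ⟨b.1 ⊔ z.1, H218.NC.rank_join b z hbz⟩
  have hPL : ∀ (x : Gr k (Fin (N + 1)) 1) (y : Gr k (Fin (N + 1)) 2), x.1 ≤ y.1 →
      PL (G 1 x) (G 2 y) := fun x y hxy =>
    ⟨fun f g => hG.cal.com 1 2 le_rfl (by omega) hN2 x y hxy f g,
      fun u h => hG.cal.inc 1 2 le_rfl (by omega) hN2 x y hxy u h⟩
  have hni' : H232.Nin H218.NC.In (star f) u := by
    intro x hx
    rw [tsupport_star] at hx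
    exact hni x hx
  -- the identity on `star D`
  have main : ∀ g' ∈ D, G N C u * G 2 l (star g') * G 1 b f = 0 := by
    intro g' hg'
    have := key_one h hG (C := C) (l := l) (b := b) hbC hlC (u := u) (g := g') (f := star f)
      hni' fun R A hA =>
        hK q Z h.ud (G 1 b) (G 1 z) (G 2 l) (G 2 ν) (hPL z l hzl)
          (hPL z ν (show z.1 ≤ ν.1 from le_sup_right)) (hPL b ν (show b.1 ≤ ν.1 from le_sup_left))
          R A (star f) g' hg' hA
    rw [star_star] at this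
    rw [mul_assoc]
    exact this
  have hD' : Dense (Submodule.span ℂ ((fun g => star g) '' D) : Set (CG k N 2)) := by
    have hsp : (Submodule.span ℂ ((fun g => star g) '' D) : Set (CG k N 2)) =
        (fun g => star g) '' (Submodule.span ℂ D : Set (CG k N 2)) := by
      apply Set.Subset.antisymm
      · intro x hx
        refine Submodule.span_induction (p := fun x _ => x ∈ (fun g => star g) ''
          (Submodule.span ℂ D : Set (CG k N 2))) ?_ ?_ ?_ ?_ hx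
        · rintro _ ⟨y, hy, rfl⟩
          exact ⟨y, Submodule.subset_span hy, rfl⟩
        · exact ⟨0, Submodule.zero_mem _, star_zero _⟩
        · rintro _ _ _ _ ⟨y, hy, rfl⟩ ⟨y', hy', rfl⟩
          exact ⟨y + y', Submodule.add_mem _ hy hy', star_add _ _⟩
        · rintro c _ _ ⟨y, hy, rfl⟩
          refine ⟨star c • y, Submodule.smul_mem _ _ hy, ?_⟩
          change star (star c • y) = c • star y
          rw [star_smul, star_star]
      · rintro _ ⟨y, hy, rfl⟩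
        refine Submodule.span_induction (p := fun y _ => star y ∈
          (Submodule.span ℂ ((fun g => star g) '' D) : Set (CG k N 2))) ?_ ?_ ?_ ?_ hy
        · intro y hy
          exact Submodule.subset_span ⟨y, hy, rfl⟩
        · rw [star_zero]; exact Submodule.zero_mem _
        · intro y y' _ _ h1 h2
          rw [star_add]; exact Submodule.add_mem _ h1 h2
        · intro c y _ h1
          rw [star_smul]; exact Submodule.smul_mem _ _ h1
    rw [hsp]
    have hsurj : Function.Surjective fun g : CG k N 2 => star g := fun g => ⟨star g, star_star g⟩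
    exact hsurj.denseRange.dense_image continuous_star (dense_iff_closure_eq.2 hD)
  refine H218.NC.mid_dense (G 2 l) (G N C u) (G 1 b f) hD' ?_ g
  rintro _ ⟨g', hg', rfl⟩
  exact main g' hg'


end key

section key3

open Vale.Agent.P092.H68.Nj3 (NJB3Stmt dense_star exists_pln)

variable {k : Type} [NontriviallyNormedField k] [ProperSpace k] [MeasurableSpace k] [BorelSpace k]
  {μ : Measure k} [IsFiniteMeasureOnCompacts μ] [μ.IsOpenPosMeasure]

/-- **[N-KL]** from the estimate with the plane -/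
theorem keyStmt3 (hNJ : NJB3Stmt k) : X.KeyStmt k μ := by
  intro N E Γ K _ _ _ _ _ _ w ι a a' π lam W Ω m q Z Ec F G h hG C l b hbC hlC hbl u g f hni
  have hN2 : 2 ≤ N := h.adm.hN
  have hN1 : 1 ≤ N := by omega
  obtain ⟨D, hD, hK⟩ := hNJ hN2
  let z : Gr k (Fin (N + 1)) 1 := ⟨C.1 ⊓ l.1, finrank_inf C.2 l.2 hlC⟩
  have hzl : z.1 ≤ l.1 := inf_le_right
  have hbz : ¬ b.1 ≤ z.1 := fun e => hbl (e.trans hzl)
  let ν : Gr k (Fin (N + 1)) 2 := ⟨b.1 ⊔ z.1, H218.NC.rank_join b z hbz⟩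
  have hzν : z.1 ≤ ν.1 := le_sup_right
  have hbν : b.1 ≤ ν.1 := le_sup_left
  obtain ⟨p, hp⟩ := exists_pln hN2 hG.cal b z l ν hzl hzν hbν hbl
  have hPL : ∀ (x : Gr k (Fin (N + 1)) 1) (y : Gr k (Fin (N + 1)) 2), x.1 ≤ y.1 →
      PL (G 1 x) (G 2 y) := fun x y hxy =>
    ⟨fun f g => hG.cal.com 1 2 le_rfl (by omega) hN2 x y hxy f g,
      fun u h => hG.cal.inc 1 2 le_rfl (by omega) hN2 x y hxy u h⟩
  have hni' : H232.Nin H218.NC.In (star f) u := by
    intro x hx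
    rw [tsupport_star] at hx
    exact hni x hx
  have main : ∀ g' ∈ D, G N C u * G 2 l (star g') * G 1 b f = 0 := by
    intro g' hg'
    have := key_one h hG (C := C) (l := l) (b := b) hbC hlC (u := u) (g := g') (f := star f)
      hni' fun R A hA =>
        hK q Z h.ud (G 1 b) (G 1 z) (G 2 l) (G 2 ν) p (hPL z l hzl)
          (hPL z ν hzν) (hPL b ν hbν) hp R A (star f) g' hg' hA
    rw [star_star] at this
    rw [mul_assoc]
    exact this
  refine H218.NC.mid_dense (G 2 l) (G N C u) (G 1 b f) (dense_star hD) ?_ g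
  rintro _ ⟨g', hg', rfl⟩
  exact main g' hg'


end key3

end Vale.Agent.P092.H34.XN
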