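import Vale.Agent.P092.SNT.X
import Vale.Agent.P092.H644.RkFin

/-!
P092, TEAM N, all amplifications (helper34): `SN.X.RkIStmt` (proofs of helper411 and helper644; the
invariant vector is the one of `RC.PicX`).
-/

set_option linter.all false

open scoped InnerProductSpace
open ContinuousLinearMap

namespace Vale.Agent.P092.H34.XN

section one

open Vale.Agent.P092.RC Vale.Agent.P092.H76.Pur Vale.Agent.P092.H618

section pic

variable {H Γ K : Type} [Group H] [TopologicalSpace H] [Group Γ] [NormedAddCommGroup K]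
  [InnerProductSpace ℂ K] [CompleteSpace K]
  {π : H →* (K →L[ℂ] K)} {lamG : Γ →* (K →L[ℂ] K)} {W : Set (K →L[ℂ] K)} {Ω : K}

/-- field `zo`, `zo2` -/
theorem rk_zo (hp : RC.PicX π lamG W Ω) {S : Set H} (hS : RC.Moore S) :
    ∀ P : K →L[ℂ] K, adjoint P = P → P * P = P →
    (∀ γ, P * lamG γ = lamG γ * P) → (∀ w ∈ W, P * w = w * P) →
    (∀ g ∈ S, P * π g = π g * P) → P = 0 ∨ P = 1 :=
  fun P _ h2 h3 h4 h5 => by
    obtain ⟨z, hz⟩ := hp.erg S hS P h4 h3 h5
    exact H411.idem_scalar hz h2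

/-- field `noinv` -/
theorem rk_noinv (hp : RC.PicX π lamG W Ω) {Y : Type} [TopologicalSpace Y] [CompactSpace Y]
    [MulAction Γ Y] [ContinuousConstSMul Γ Y] (hNI : NIS fun (γ : Γ) (y : Y) => γ • y) :
    ∀ G : C(Y, ℂ) →⋆ₐ[ℂ] (K →L[ℂ] K),
    (∀ g f, π g * G f = G f * π g) → (∀ w ∈ W, ∀ f, w * G f = G f * w) →
    (∀ γ f, lamG γ * G f * lamG γ⁻¹ =
      G (f.comp ⟨fun y => γ⁻¹ • y, continuous_const_smul γ⁻¹⟩)) → False := by
  intro G h1 h2 h3
  obtain ⟨Ω', hn', hi'⟩ := hp.inv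
  refine const_false_hom hNI hn' hi' G (fun γ f f' h => ?_) (fun f w hw => (h2 w hw f).symm)
    fun f g => (h1 g f).symm
  rw [h3]
  congr 1
  ext y
  change f (γ⁻¹ • y) = f' y
  rw [← h, smul_inv_smul]

/-- All operator fields of `RkData` from the picture. -/
theorem rkData_of (hp : RC.PicX π lamG W Ω) (N : ℕ) {Y : ℕ → Type} [∀ d, MetricSpace (Y d)]
    [∀ d, CompactSpace (Y d)] {I : ∀ i j, Y i → Y j → Prop} {S : ℕ → Type}
    {R : ∀ i j, S i → S j → Prop} [∀ d, MulAction Γ (Y d)]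
    [∀ d, ContinuousConstSMul Γ (Y d)] [∀ j, MulAction H (S j)]
    {lam : S N → (C(Y N, ℂ) →⋆ₐ[ℂ] (K →L[ℂ] K))}
    {bet : S 1 → (C(Y 1, ℂ) →⋆ₐ[ℂ] (K →L[ℂ] K))}
    (hN : 1 ≤ N) (tgeo : TGeo N Y I) (sgeo : SGeo N S R H)
    (gI : ∀ (γ : Γ) i j L L', I i j L L' → I i j (γ • L) (γ • L'))
    (moore : ∀ j, 1 ≤ j → j ≤ N → ∀ X : S j, RC.Moore {g : H | g • X = X})
    (moore2 : ∀ j, 1 ≤ j → j < N → ∀ A B : S (j + 1), A ≠ B →
      (∃ X : S j, R j (j + 1) X A ∧ R j (j + 1) X B) → RC.Moore {g : H | g • A = A ∧ g • B = B})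
    (nis : ∀ d, 1 ≤ d → d ≤ N → NIS fun (γ : Γ) (y : Y d) => γ • y)
    (cm : ∀ M f, Cm W (lam M f))
    (covG : ∀ γ M f, lamG γ * lam M f * lamG γ⁻¹ =
      lam M (f.comp ⟨fun y => γ⁻¹ • y, continuous_const_smul γ⁻¹⟩))
    (covP : ∀ g M f, π g * lam M f * π g⁻¹ = lam (g • M) f)
    (w0 : ∀ c : S 1, ∀ T ∈ WA (Y := Y) R lam c, ∀ M, R 1 N c M → ∀ u h, Nin (I 1 N) u h →
      bet c u * T * lam M h = 0) :
    RkData N I R Γ H lamG π W lam bet where
  hN := hN
  tgeo := tgeo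
  sgeo := sgeo
  gI := gI
  uG := hp.adjL
  uπ := hp.adjP
  sW := hp.Wadj
  covG := covG
  covπ := covP
  covW := fun w hw M f => (cm M f w hw).symm
  zo := fun j h1 h2 X P a b c d e => rk_zo hp (moore j h1 h2 X) P a b c d fun g hg => e g hg
  zo2 := fun j h1 h2 A B hAB hX P a b c d e =>
    rk_zo hp (moore2 j h1 h2 A B hAB hX) P a b c d fun g hg => e g hg.1 hg.2
  noinv := fun d h1 h2 G a b c => rk_noinv hp (nis d h1 h2) G a b c
  w0 := w0

end pic

end one

section two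

open TopologicalSpace Topology Module Projectivization ContinuousLinearMap
open scoped Matrix LinearAlgebra.Projectivization
open Vale.Agent.P092.H100.Gr Vale.Agent.P092.H644.Gr3 Vale.Agent.P092.H644.PGr
open Vale.Agent.P092.H644.RkG Vale.Agent.P092.H618
open Vale.Agent.P092.H789 (PG)
open Vale.Agent.P092.RC (Cm Moore)
open Vale.Agent.P092.H76.Pur (NIS)
open Vale.Agent.P092.SN
open Vale.Agent.P092.H644.RkI hiding rkI

variable {k : Type} [NontriviallyNormedField k] [ProperSpace k]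

/-- **[N-RKI]** the calculi of all subspaces, from those of the points and of the hyperplanes. -/
theorem rkI (hR : H618.RkStmt) [MeasurableSpace k] {μ : MeasureTheory.Measure k} :
    SN.X.RkIStmt k μ := by
  intro N E Γ K _ _ _ _ _ _ w ι a a' π lam W Ω m q Z Ec F h hW
  have hN : 1 ≤ N := le_trans (by norm_num) h.adm.hN
  letI actΓ : ∀ d, MulAction Γ (Y0 k N d) := fun d => MulAction.compHom _ (qP q h.ph)
  haveI csΓ : ∀ d, ContinuousConstSMul Γ (Y0 k N d) := fun d =>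
    ⟨fun γ => continuous_const_smul (qP q h.ph γ)⟩
  letI actE : ∀ j, MulAction E (S0 k N j) := fun j => MulAction.compHom _ a
  let pY : RC.YY k N ≃ₜ Y0 k N 1 := p1H.trans (idY k N 1)
  let hY : RC.YY k N ≃ₜ Y0 k N N := hypH.trans (idY k N N)
  let lamY : S0 k N N → (C(Y0 k N N, ℂ) →⋆ₐ[ℂ] (K →L[ℂ] K)) :=
    fun M => trC hY (F (hypH.symm M))
  let betY : S0 k N 1 → (C(Y0 k N 1, ℂ) →⋆ₐ[ℂ] (K →L[ℂ] K)) :=
    fun c => trC pY (Ec (p1H.symm c))
  -- actions
  have hΓ : ∀ (γ : Γ) (d : ℕ) (L : Gr k (Fin (N + 1)) d),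
      γ⁻¹ • (idY k N d L) = idY k N d ((q γ)⁻¹ • L) := fun γ d L => qP_inv_smul γ L
  have hM : ∀ (e : E) (M : S0 k N N), hypH.symm (e • M) = a' e • hypH.symm M := by
    intro e M
    apply hypH.injective
    refine (hypH.apply_symm_apply _).trans ?_
    change a e • M = hyp (a' e • hypH.symm M)
    rw [hyp_of_ort (h.adm.ort e)]
    exact congrArg (fun X : Gr k (Fin (N + 1)) N => a e • X) (hypH.apply_symm_apply M).symm
  have hS : ∀ (g : RC.GG k N) (j : ℕ) (X : Gr k (Fin (N + 1)) j),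
      (ι g • (show S0 k N j from X) : S0 k N j) = (show S0 k N j from g • X) := by
    intro g j X
    change a (ι g) • X = _
    rw [← can_smul]
    exact smul_eq_of_pts (fun x => by rw [h.adm.comp, can_smul_pt]) _
  have stab : ∀ (e : E) (j : ℕ) (X : S0 k N j), e • X = X ↔ SN.Prv a X.1 e := fun e j X =>
    stab_iff (a e) (show Gr k (Fin (N + 1)) j from X)
  have hinc : ∀ {c : S0 k N 1} {M : S0 k N N}, R0 1 N c M →
      SN.inc (p1H.symm c) (hypH.symm M) := by
    intro c M hcM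
    refine p1_le_hyp.1 ?_
    have e1 : p1 (p1H.symm c) = c := p1H.apply_symm_apply c
    have e2 : hyp (hypH.symm M) = M := hypH.apply_symm_apply M
    rw [e1, e2]
    exact hcM
  have hD : RkData N I0 R0 Γ E lam π W lamY betY := by
    refine XN.rkData_of h.pic N hN tgeo0 (sgeo0 hN a ι h.adm.comp)
      (fun γ i j L L' hL => smul_le_pg.2 hL) (fun j h1 h2 X => ?_)
      (fun j h1 h2 A B hAB hX => ?_) (fun d h1 h2 => ?_) (fun M f => h.f.cm _ _)
      (fun γ M f => ?_) (fun e M f => ?_) (fun c T hT M hcM u f hn => ?_)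
    · have h3 := h.adm.stb X.1 X.1
      have h4 : {e : E | e • X = X} = {e | SN.Prv a X.1 e ∧ SN.Prv a X.1 e} := by
        ext e
        rw [Set.mem_setOf_eq, Set.mem_setOf_eq, stab, and_self]
      rw [h4]
      exact h3
    · have h3 := h.adm.stb A.1 B.1
      have h4 : {e : E | e • A = A ∧ e • B = B} = {e | SN.Prv a A.1 e ∧ SN.Prv a B.1 e} := by
        ext e
        rw [Set.mem_setOf_eq, Set.mem_setOf_eq, stab, stab]
      rw [h4]
      exact h3
    · exact nis_homeo (idY k N d) (act := fun γ L => q γ • L) (fun γ L => rfl) (h.nis d h1 h2)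
    · have h3 := h.f.cov γ (hypH.symm M) (f.comp (hY : C(RC.YY k N, Y0 k N N)))
      refine h3.trans ?_
      change F (hypH.symm M) _ = F (hypH.symm M) _
      congr 1
      ext x
      change f (idY k N N (hyp ((RC.ct (q γ))⁻¹ • x))) = f (γ⁻¹ • idY k N N (hyp x))
      rw [hyp_ct, hΓ]
    · have h3 := h.f.pcov e (hypH.symm M) (f.comp (hY : C(RC.YY k N, Y0 k N N)))
      refine h3.trans ?_
      change _ = F (hypH.symm (e • M)) _
      rw [hM]
      rfl
    · refine hW (p1H.symm c) T ?_ (hypH.symm M) (hinc hcM)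
        (u.comp (pY : C(RC.YY k N, Y0 k N 1))) (f.comp (hY : C(RC.YY k N, Y0 k N N))) ?_
      · refine StarAlgebra.adjoin_mono ?_ hT
        rintro _ ⟨M', f', hM', rfl⟩
        exact ⟨hypH.symm M', f'.comp (hY : C(RC.YY k N, Y0 k N N)), hinc hM', rfl⟩
      · intro x hx l hl hxl
        rw [tsupport_homeo] at hx hl
        exact hn _ hx _ hl (p1_le_hyp.2 hxl)
  obtain ⟨G', hG'⟩ := hR K N (Y0 k N) I0 (S0 k N) R0 Γ E lam π W lamY betY
    (fun j X => ⟨idY k N j X⟩) hD
  refine ⟨fun j X => trC (idY k N j).symm (G' j X), ?_, ?_, ?_, ?_, ?_, ?_, ?_⟩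
  · refine ⟨fun i j h1 h2 h3 X X' hX f f' => hG'.com i j h1 h2 h3 X X' hX _ _,
      fun i j h1 h2 h3 X X' hX u f hn => ?_, fun c c' hne ξ hξ => ?_,
      fun j h1 h2 A B hne hX ξ hξ => ?_⟩
    · refine hG'.inc i j h1 h2 h3 X X' hX
        (u.comp ((idY k N i).symm : C(Y0 k N i, Gr k (Fin (N + 1)) i)))
        (f.comp ((idY k N j).symm : C(Y0 k N j, Gr k (Fin (N + 1)) j))) fun x hx y hy hxy => ?_
      rw [tsupport_homeo] at hx hy
      exact hn _ hx _ hy hxy
    · refine h.e.agr (p1H.symm c) (p1H.symm c') (fun he => hne (p1H.symm.injective he)) ξ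
        fun f => ?_
      let s1 : Gr k (Fin (N + 1)) 1 ≃ₜ RC.YY k N := p1H.symm
      have h3 := hξ (f.comp (s1 : C(Gr k (Fin (N + 1)) 1, RC.YY k N)))
      have h4 : ∀ c : Gr k (Fin (N + 1)) 1, trC (idY k N 1).symm (G' 1 c)
          (f.comp (s1 : C(Gr k (Fin (N + 1)) 1, RC.YY k N))) = Ec (p1H.symm c) f := by
        intro c
        refine (hG'.pnt c _).trans ?_
        change Ec (p1H.symm c) _ = _
        congr 1
        ext x
        change f (p1H.symm (p1H x)) = f x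
        rw [Homeomorph.symm_apply_apply]
      rw [h4, h4] at h3
      exact h3
    · refine hG'.agr j h1 h2 A B hne hX ξ fun f => ?_
      exact hξ (f.comp (idY k N (j + 1) : C(Gr k (Fin (N + 1)) (j + 1), Y0 k N (j + 1))))
  · intro c f
    refine (hG'.pnt (p1 c) _).trans ?_
    change Ec (p1H.symm (p1H c)) _ = _
    rw [Homeomorph.symm_apply_apply]
    rfl
  · intro M f
    refine (hG'.top (hyp M) _).trans ?_
    change F (hypH.symm (hypH M)) _ = _
    rw [Homeomorph.symm_apply_apply]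
    rfl
  · intro j h1 h2 X f w hw
    exact (hG'.covW j h1 h2 X w hw _).symm
  · intro j h1 h2 γ X f
    refine (hG'.covG j h1 h2 X γ _).trans ?_
    change G' j X _ = G' j X _
    congr 1
    ext y
    change f ((idY k N j).symm (γ⁻¹ • y)) = f ((q γ)⁻¹ • (idY k N j).symm y)
    rw [show γ⁻¹ • y = _ from hΓ γ j ((idY k N j).symm y)]
    rfl
  · intro j h1 h2 g X f
    refine (hG'.covπ j h1 h2 X (ι g) _).trans ?_
    change _ = G' j (show S0 k N j from g • X) _
    rw [← hS]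
  · intro j h1 h2 X T hT f
    refine hG'.cen j h1 h2 X T (fun M f' hM' => ?_) _
    refine hT (hypH.symm M) (f'.comp (hY : C(RC.YY k N, Y0 k N N))) ?_
    have e2 : hyp (hypH.symm M) = M := hypH.apply_symm_apply M
    rw [e2]
    exact hM'


/-- **[N-RKI]** for `RC.PicX`, every local field -/
theorem rkIStmt {k : Type} [NontriviallyNormedField k] [ProperSpace k] [MeasurableSpace k]
    {μ : MeasureTheory.Measure k} : SN.X.RkIStmt k μ :=
  rkI H560.rkStmt

end two

end Vale.Agent.P092.H34.XN
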