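import Vale.Agent.P092.H34.X.NW0
import Vale.Agent.P092.H34.X.NRk
import Vale.Agent.P092.H34.X.NK
import Vale.Agent.P092.H596.N.W0

/-!
P092, TEAM N, all amplifications (helper34): `SN.X.LegComm` from the word count, every local field.
-/

set_option linter.all false

open MeasureTheory

namespace Vale.Agent.P092.H34.XN

variable {k : Type} [NontriviallyNormedField k] [ProperSpace k] [MeasurableSpace k]
  [BorelSpace k] {μ : Measure k} [IsFiniteMeasureOnCompacts μ] [μ.IsOpenPosMeasure]

/-- **[N-W0]** for `RC.PicX` -/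
theorem w0Stmt (hk : H933.LocK k) : SN.X.W0Stmt k μ := w0Stmt_of (H596.N.njwStmt hk)

/-- in one leg everything commutes, from `NJBStmt` -/
theorem legComm (hk : H933.LocK k) (h : SN.NJBStmt k) : SN.X.LegComm k μ :=
  SN.X.legComm_of (w0Stmt hk) rkIStmt (keyStmt h)

/-- in one leg everything commutes, from `NJB3Stmt` -/
theorem legComm3 (hk : H933.LocK k) (h : H68.Nj3.NJB3Stmt k) : SN.X.LegComm k μ :=
  SN.X.legComm_of (w0Stmt hk) rkIStmt (keyStmt3 h)

end Vale.Agent.P092.H34.XN
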