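import Vale.Agent.P092.SNT.X
import Vale.Agent.P092.H790.CTN
import Vale.Agent.P092.H34.X.PicW

/-!
P092, TEAM N, all amplifications (helper34): the counting principle of helper790 for a leg of the
picture `RC.PicX`.
-/

set_option linter.all false

open scoped InnerProductSpace ENNReal LinearAlgebra.Projectivization
open Filter Topology ContinuousLinearMap MeasureTheory TopologicalSpace

namespace Vale.Agent.P092.H34.XN

open Vale.Agent.P092.SD (Ms UC)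
open Vale.Agent.P092.RC (Cm TRN PicX GG PG YY y0 ct)
open Vale.Agent.P092.H790.CTA (ORBG SIZEG csm)
open Vale.Agent.P092.H790.CT (PicL)
open Vale.Agent.P092.H790.CTN (un_tendsto ph_trans nm_pos ct_cont ph_ct)
open Vale.Agent.P092.SN

/-- the algebraic part of the picture -/
theorem picL {G Γ K : Type} [Group G] [TopologicalSpace G] [Group Γ] [NormedAddCommGroup K]
    [InnerProductSpace ℂ K] [CompleteSpace K] {π : G →* (K →L[ℂ] K)} {lam : Γ →* (K →L[ℂ] K)}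
    {W : Set (K →L[ℂ] K)} {Ω : K} (h : PicX π lam W Ω) : PicL π lam W Ω :=
  ⟨h.adjP, h.adjL, h.comm, h.Wadj, h.WP, h.WL, h.tr_adj⟩

section main

variable {k : Type} [NontriviallyNormedField k] [ProperSpace k] {N : ℕ} {E Γ K : Type} [Group E]
  [TopologicalSpace E] [Group Γ] [NormedAddCommGroup K] [InnerProductSpace ℂ K] [CompleteSpace K]
  [MeasurableSpace k] [BorelSpace k] {μ : Measure k} [IsFiniteMeasureOnCompacts μ]
  [μ.IsOpenPosMeasure]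
  {w : kˣ} {ι : GG k N →* E} {a a' : E →* PG k (N + 1)} {π : E →* (K →L[ℂ] K)}
  {lam : Γ →* (K →L[ℂ] K)} {W : Set (K →L[ℂ] K)} {Ω : K} {m : Set Γ → (K →L[ℂ] K)}
  {q : Γ → GG k N} {Z : ℝ → Set Γ} {Ec F : YY k N → (CY k N →⋆ₐ[ℂ] (K →L[ℂ] K))}

/-- **Counting for one family of calculi.** -/
theorem fam_mul_zero (htg : IsTopologicalGroup E) (hι : Continuous ι) (hP : PicL π lam W Ω)
    (hM : Ms lam W Ω m) (hUC : UC π W Ω m) (hph : PH q) {j : Fin (N + 1)}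
    (hj : (0 : Fin (N + 1)) ≠ j)
    (horb : ∃ ρ : ℝ, 0 < ρ ∧ ρ < 1 ∧ ORBG μ (ι (bw w)) (fun s => ι (un hj s)) ρ π lam W Ω)
    (hsize : SIZEG (ι (bw w)) π Ω m fun γ => nm (q γ))
    (hE : EFam w ι a π lam W m q Z Ec) {g : GG k N} {B : K →L[ℂ] K} (hB : Cm W B)
    (hb : Commute B (π (ι (g * bw w * g⁻¹)))) (hn : ∀ s, Commute B (π (ι (g * un hj s * g⁻¹))))
    {A : Set (YY k N)} (hA : IsOpen A) {u : CY k N} (hu : tsupport u ⊆ A)
    (hc : ∀ R : ℝ, ∃ T > 0, ∃ (C : ℝ) (d : ℕ), ∀ J : ℝ, 0 ≤ J → ∀ S : Finset Γ,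
      (∀ γ ∈ S, γ ∈ NWA q Z R T A ∧ Real.log (nm (q γ)) ≤ J) →
      ∑ γ ∈ S, ‖adjoint B (lam γ Ω)‖ ^ 2 ≤ C * (1 + J) ^ d) :
    Ec (g • y0) u * B = 0 := by
  haveI := htg
  obtain ⟨ρ, hρ, hρ1, hORB⟩ := horb
  have hnc : Tendsto (fun s : k => ι (un hj s)) (𝓝 0) (𝓝 1) := by
    have h1 := (hι.tendsto 1).comp (un_tendsto (k := k) hj)
    rwa [map_one] at h1
  have hb' : Commute B (π (ι g * ι (bw w) * (ι g)⁻¹)) := by
    rw [← map_mul, ← map_inv, ← map_mul]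
    exact hb
  have hn' : ∀ s, Commute B (π (ι g * ι (un hj s) * (ι g)⁻¹)) := fun s => by
    rw [← map_mul, ← map_inv, ← map_mul]
    exact hn s
  refine H790.CTA.mul_zero_of_dom (μ := μ) (n := fun s => ι (un hj s)) (b := ι (bw w)) (ρ := ρ)
    hP hM hUC hρ.le hnc hORB (ph_trans hph) hsize (g := ι g) hB hb' hn'
    (c := ‖u‖) ?_
  intro ζ ε hε
  obtain ⟨R, hR⟩ := hE.dom g u A hA hu ζ ε hε
  obtain ⟨T, hT, C, d, hcT⟩ := hc R
  obtain ⟨η, hη, hpoly⟩ := H790.CTA.of_poly (K := K) (lam := lam) (Ω := Ω)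
    (sz := fun γ => nm (q γ)) hρ hρ1 (fun γ => nm_pos (q γ)) d
  refine ⟨NWA q Z R T A, ⟨η, hη, hpoly B (NWA q Z R T A) C hcT⟩, ?_⟩
  filter_upwards [hR T hT] with t ht
  have e1 : (ι g * ι (bw w) ^ t * (ι g)⁻¹)⁻¹ = (ι (g * bw w ^ t * g⁻¹))⁻¹ := by
    rw [map_mul, map_mul, map_pow, map_inv]
  rw [e1]
  exact ht

/-- **The counting principle for the points.** -/
theorem e_mul_zero (h : X.LegN μ w ι a a' π lam W Ω m q Z Ec F) {g : GG k N} {j : Fin (N + 1)}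
    (hj : (0 : Fin (N + 1)) ≠ j) {B : K →L[ℂ] K} (hB : Cm W B)
    (hb : Commute B (π (ι (g * bw w * g⁻¹)))) (hn : ∀ s, Commute B (π (ι (g * un hj s * g⁻¹))))
    {A : Set (YY k N)} (hA : IsOpen A) {u : CY k N} (hu : tsupport u ⊆ A)
    (hc : ∀ R : ℝ, ∃ T > 0, ∃ (C : ℝ) (d : ℕ), ∀ J : ℝ, 0 ≤ J → ∀ S : Finset Γ,
      (∀ γ ∈ S, γ ∈ NWA q Z R T A ∧ Real.log (nm (q γ)) ≤ J) →
      ∑ γ ∈ S, ‖adjoint B (lam γ Ω)‖ ^ 2 ≤ C * (1 + J) ^ d) :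
    Ec (g • y0) u * B = 0 :=
  fam_mul_zero (μ := μ) h.adm.tg h.adm.cι (picL h.pic) h.ms h.uc h.ph hj (h.orb hj) h.size h.e hB hb hn
    hA hu hc

/-- **The counting principle for the hyperplanes.** -/
theorem f_mul_zero (h : X.LegN μ w ι a a' π lam W Ω m q Z Ec F) {g : GG k N} {j : Fin (N + 1)}
    (hj : (0 : Fin (N + 1)) ≠ j) {B : K →L[ℂ] K} (hB : Cm W B)
    (hb : Commute B (π (ι (ct (g * bw w * g⁻¹)))))
    (hn : ∀ s, Commute B (π (ι (ct (g * un hj s * g⁻¹)))))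
    {A : Set (YY k N)} (hA : IsOpen A) {u : CY k N} (hu : tsupport u ⊆ A)
    (hc : ∀ R : ℝ, ∃ T > 0, ∃ (C : ℝ) (d : ℕ), ∀ J : ℝ, 0 ≤ J → ∀ S : Finset Γ,
      (∀ γ ∈ S, γ ∈ NWA (fun γ => ct (q γ)) Z R T A ∧ Real.log (nm (ct (q γ))) ≤ J) →
      ∑ γ ∈ S, ‖adjoint B (lam γ Ω)‖ ^ 2 ≤ C * (1 + J) ^ d) :
    F (g • y0) u * B = 0 :=
  fam_mul_zero (μ := μ) (ι := ι.comp ct) (a := a') h.adm.tg (h.adm.cι.comp ct_cont) (picL h.pic) h.ms
    h.uc (ph_ct h.ph) hj (h.orb' hj) h.size' h.f hB hb hn hA hu hc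

/-- The adjoint of a `Cm` operator against the orbit of `Ω`: only the covariance is needed. -/
theorem adj_lam (hP : PicL π lam W Ω) {B B' : K →L[ℂ] K} {γ : Γ}
    (h : lam γ⁻¹ * adjoint B * lam γ = B') : ‖adjoint B (lam γ Ω)‖ = ‖B' Ω‖ := by
  rw [← h]
  exact (H790.CT.lam_norm hP γ⁻¹ (adjoint B (lam γ Ω))).symm

end main

end Vale.Agent.P092.H34.XN
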