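import Vale.Agent.P092.SNT.X
import Vale.Agent.P092.SN.ClsF

/-!
P092, TEAM N, all amplifications (helper34): `SN.X.ClsStmt k μ`, every local field (proofs of
helper350 and helper411 with `RC.PicX` in the place of `RC.Pic`).
-/

set_option linter.all false

open scoped InnerProductSpace ENNReal LinearAlgebra.Projectivization ZeroAtInfty
open Filter Topology ContinuousLinearMap MeasureTheory TopologicalSpace Matrix

namespace Vale.Agent.P092.H34.XN

section zo

open Vale.Agent.P092.H411 (comm_starProjection idem_scalar)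
open Vale.Agent.P092.RC (Cm)

variable {G Γ K : Type} [Group G] [TopologicalSpace G] [Group Γ] [NormedAddCommGroup K]
  [InnerProductSpace ℂ K] [CompleteSpace K]
  {π : G →* (K →L[ℂ] K)} {lam : Γ →* (K →L[ℂ] K)} {W : Set (K →L[ℂ] K)} {Ω : K}

/-- **[N-01]**, subspace form. -/
theorem zero_one_sub (hp : RC.PicX π lam W Ω) {S : Set G} (hS : RC.Moore S) {M : Submodule ℂ K}
    (hM : IsClosed (M : Set K)) (hW : ∀ w ∈ W, ∀ ζ ∈ M, w ζ ∈ M)
    (hL : ∀ γ, ∀ ζ ∈ M, lam γ ζ ∈ M) (hπ : ∀ g ∈ S, ∀ ζ ∈ M, π g ζ ∈ M ∧ π g⁻¹ ζ ∈ M) :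
    M = ⊥ ∨ M = ⊤ := by
  haveI : CompleteSpace M := hM.completeSpace_coe
  have h : M.starProjection = 0 ∨ M.starProjection = 1 := by
    have hzo : ∀ P : K →L[ℂ] K, Cm W P → (∀ γ, P * lam γ = lam γ * P) →
        (∀ g ∈ S, P * π g = π g * P) → P * P = P → P = 0 ∨ P = 1 := by
      intro P h1 h2 h3 h4
      obtain ⟨z, hz⟩ := hp.erg S hS P h1 h2 h3
      exact idem_scalar hz h4
    refine hzo _ ?_ ?_ ?_ ?_
    · intro w hw
      exact comm_starProjection (hW w hw) (hW _ (hp.Wadj w hw))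
    · intro γ
      refine comm_starProjection (hL γ) ?_
      rw [hp.adjL]
      exact hL γ⁻¹
    · intro g hg
      refine comm_starProjection (fun ζ hζ => (hπ g hg ζ hζ).1) ?_
      rw [hp.adjP]
      exact fun ζ hζ => (hπ g hg ζ hζ).2
    · ext1 ζ
      change M.starProjection (M.starProjection ζ) = M.starProjection ζ
      exact Submodule.starProjection_eq_self_iff.2 (Submodule.starProjection_apply_mem _ _)
  rcases h with h | h
  · left
    rw [eq_bot_iff]
    intro ζ hζ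
    have h1 : M.starProjection ζ = ζ := Submodule.starProjection_eq_self_iff.2 hζ
    rw [h] at h1
    exact (Submodule.mem_bot ℂ).2 h1.symm
  · right
    rw [eq_top_iff]
    intro ζ _
    have h1 : M.starProjection ζ ∈ M := Submodule.starProjection_apply_mem _ _
    rw [h] at h1
    exact h1

end zo

section cls

open Vale.Agent.P092.SN
open Vale.Agent.P092.RC (Cm TRN Moore GG PG YY y0 ct)
open Vale.Agent.P092.H100.Gr (Gr)
open Vale.Agent.P092.H644.Gr3 (p1 hyp p1H hypH p1_le_hyp)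
open Vale.Agent.P092.H644.RkI (tsupport_homeo)
open Vale.Agent.P092.H35 (sp)
open Vale.Agent.P092.H35.Sig (sgm)
open Vale.Agent.P092.SN.ClsF hiding lg_of clsStmt

section

variable {k : Type} [NontriviallyNormedField k] [ProperSpace k] {N : ℕ} {E Γ K : Type} [Group E]
  [TopologicalSpace E] [Group Γ] [NormedAddCommGroup K] [InnerProductSpace ℂ K] [CompleteSpace K]

theorem lg_of [MeasurableSpace k] {μ : Measure k} {w : kˣ} {ι : GG k N →* E}
    {a a' : E →* PG k (N + 1)} {π : E →* (K →L[ℂ] K)} {lam : Γ →* (K →L[ℂ] K)}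
    {W : Set (K →L[ℂ] K)} {Ω : K} {m : Set Γ → (K →L[ℂ] K)} {q : Γ → GG k N} {Z : ℝ → Set Γ}
    {Ec F : YY k N → (CY k N →⋆ₐ[ℂ] (K →L[ℂ] K))}
    {G : ∀ j, Gr k (Fin (N + 1)) j → (CG k N j →⋆ₐ[ℂ] (K →L[ℂ] K))} (hk : H933.LocK k)
    (h : X.LegN μ w ι a a' π lam W Ω m q Z Ec F) (hC : CalN ι π lam W q Ec F G)
    (hK : H218.NC.Key₁ G) : H121.Lg a a' π lam W (qq q h.ph) Ec F := by
  have hN := h.adm.hN
  have e1 : ∀ b f, Ec b f = G 1 (p1 b) (gp f) := fun b f => by rw [hC.pnt, fp_gp]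
  have e2 : ∀ b f, F b f = G N (hyp b) (gh f) := fun b f => by rw [hC.top, fh_gh]
  have hin : ∀ u v : CY k N,
      (∀ x ∈ tsupport u, ∀ y ∈ tsupport v, ¬ Projectivization.orthogonal x y) →
      H232.Nin (fun x y => H218.NC.In x y) (gp u) (gh v) := by
    intro u v huv x hx y hy hxy
    rw [tsupport_gp] at hx
    rw [tsupport_gh] at hy
    refine huv _ hx _ hy ?_
    rw [← p1_le_hyp]
    have h1 : p1 (p1H.symm x) = x := p1H.apply_symm_apply x
    have h2 : hyp (hypH.symm y) = y := hypH.apply_symm_apply y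
    rw [h1, h2]
    exact hxy
  refine ⟨h.adm.ort, ?_, ?_, ?_, ?_, ?_, h.e.pcov, h.f.pcov, ?_, ?_, h.e.cm, h.f.cm, ?_⟩
  · intro b c f g
    rw [e1, e1]
    exact H218.NC.all_comm hN hC.cal hK 1 1 le_rfl (by omega) le_rfl (by omega) _ _ _ _
  · intro b c f g
    rw [e1, e2]
    exact H218.NC.all_comm hN hC.cal hK 1 N le_rfl (by omega) (by omega) le_rfl _ _ _ _
  · intro b c f g
    rw [e2, e2]
    exact H218.NC.all_comm hN hC.cal hK N N (by omega) le_rfl (by omega) le_rfl _ _ _ _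
  · intro b c hbc u v huv
    rw [e1, e2]
    exact hC.cal.inc 1 N le_rfl (by omega) le_rfl _ _ (p1_le_hyp.2 hbc) _ _ (hin u v huv)
  · intro b c hbc ξ hξ
    refine H218.NC.ninc hN hC.cal hK 1 N le_rfl (by omega) (by omega) le_rfl (p1 b) (hyp c)
      (fun hle => hbc (p1_le_hyp.1 hle)) ξ fun u v huv => ?_
    rw [hC.pnt, hC.top]
    refine hξ (fp u) (fh v) fun x hx y hy hxy => ?_
    rw [tsupport_fp] at hx
    rw [tsupport_fh] at hy
    exact huv _ hx _ hy (p1_le_hyp.2 hxy)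
  · intro γ b f
    rw [h.e.cov]
    congr 1
  · intro γ
    refine ⟨⟨fun x => (ct (q γ))⁻¹ • x, continuous_const_smul _⟩, fun b f => ?_⟩
    rw [h.f.cov]
    rfl
  · intro i j hij M hM hW hL hπ
    refine zero_one_sub h.pic (H835.moore_line hk h.adm hij.symm) hM hW hL ?_
    intro g hg ζ hζ
    have h1 : ∀ e : E, (∀ x : YY k N, x.submodule ≤ Submodule.span k
        {(Pi.single j 1 : Fin (N + 1) → k), Pi.single i 1} → a e • x = x) →
        H121.FixL i j (a e) := by
      intro e he α β hv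
      refine he _ ?_
      rw [H121.pt_of hv]
      change (Projectivization.mk k _ hv).submodule ≤ _
      rw [Projectivization.submodule_mk, Submodule.span_singleton_le_iff_mem]
      exact add_mem (Submodule.smul_mem _ _ (Submodule.subset_span (Or.inl rfl)))
        (Submodule.smul_mem _ _ (Submodule.subset_span (Or.inr rfl)))
    have h2 : ∀ x : YY k N, x.submodule ≤ Submodule.span k
        {(Pi.single j 1 : Fin (N + 1) → k), Pi.single i 1} → a g⁻¹ • x = x := fun x hx => by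
      rw [map_inv, inv_smul_eq_iff, hg x hx]
    exact ⟨hπ g (h1 g hg) ζ hζ, hπ g⁻¹ (h1 g⁻¹ h2) ζ hζ⟩

end

/-- **[N-CLS]** for `RC.PicX` -/
theorem clsStmt {k : Type} [NontriviallyNormedField k] [ProperSpace k] [MeasurableSpace k]
    {μ : Measure k} (hk : H933.LocK k) : X.ClsStmt k μ := by
  intro N E Γ K _ _ _ _ _ _ w ι a a' π lam W Ω m q Z Ec F G h hC hK
  have hL := lg_of hk h hC hK
  obtain ⟨Φ, hE, hF⟩ := H121.exists_phi hL
  haveI : Nontrivial K := ⟨Ω, 0, fun h0 => by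
    have := h.pic.nΩ
    rw [h0, norm_zero] at this
    exact zero_ne_one this⟩
  obtain ⟨σ, hσ⟩ := H121.clsO_of hL hE hF h.adm.hN h.adm.comp
  exact ⟨σ, _, hσ.nd, hσ.cm, hσ.cov, hσ.pcov, hσ.mulE⟩

end cls

end Vale.Agent.P092.H34.XN
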