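import Vale.Agent.P092.H34.X.PXc
import Vale.Agent.P092.H34.X.NX1
import Vale.Agent.P092.SNPT.Main

/-!
P092, TEAM N, products, all amplifications (helper34): the two product joints of `SNPT/Main.lean`.
-/

set_option linter.all false

open scoped InnerProductSpace ENNReal ZeroAtInfty LinearAlgebra.Projectivization
open Filter Topology ContinuousLinearMap MeasureTheory Matrix

namespace Vale.Agent.P092.H34.XN

/-- (X1) for `RC.PicX` -/
theorem x1Stmt {k k' : Type} [NontriviallyNormedField k] [ProperSpace k]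
    [NontriviallyNormedField k'] [ProperSpace k'] [MeasurableSpace k] [BorelSpace k]
    {μ : Measure k} [IsFiniteMeasureOnCompacts μ] [μ.IsOpenPosMeasure] (hk' : H933.LocK k') :
    SNPT.X1Stmt k k' μ := by
  intro N N' E Γ K _ _ _ _ _ _ w ι a a' π lam W Ω m q Z Ec F q' E' h _ hq' cm pc cov c M hc u v f hn
  exact x1 hk' h hq' cm pc cov c M u f v hc hn

/-- the two legs commute, product form, for `RC.PicX` -/
theorem xcpStmt {J : Type} [Fintype J] (k : J → Type) [∀ j, NontriviallyNormedField (k j)]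
    [∀ j, ProperSpace (k j)] (N : J → ℕ) : SNPT.XCPStmt k N := by
  intro E Γ K _ _ _ _ _ _ _ ι a a' π lam₁ lam₂ X Ω q₁ q₂ E₁ E₂ σ₁ σ₂ Q₁ Q₂ hA hP hP' _ _ t₁ _
    p₁ p₂ d₁ _ h₁ h₂ c₁ c₂ i j ψ φ
  exact pXcN hA.adm hA.triv hP t₁ hP'.adjL p₁ p₂ d₁ h₁ c₁ h₂ c₂ i j ψ φ

end Vale.Agent.P092.H34.XN
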