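import Vale.Agent.P092.H34.X.N
import Vale.Agent.P092.H34.X.NCl
import Vale.Agent.P092.H34.X.NP
import Vale.Agent.P092.H914.Fin

/-!
P092, TEAM N, all amplifications (helper34): all joints of `SNT` and `SNPT` over every local field.
-/

set_option linter.all false

open MeasureTheory

namespace Vale.Agent.P092.H34.XN

variable {k : Type} [NontriviallyNormedField k] [ProperSpace k] [MeasurableSpace k]
  [BorelSpace k] {μ : Measure k} [IsFiniteMeasureOnCompacts μ] [μ.IsOpenPosMeasure]

/-- in one leg everything commutes, every local field -/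
theorem legCommAll (hk : H933.LocK k) : SN.X.LegComm k μ := legComm hk (H914.njbStmt hk)

/-- the joints of `SNT/Main.lean` -/
theorem joints (hk : H933.LocK k) :
    SN.X.LegComm k μ ∧ SN.X.ClsStmt k μ ∧ SN.X.XCStmt k :=
  ⟨legCommAll hk, clsStmt hk, xcStmt k⟩

end Vale.Agent.P092.H34.XN
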