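import Vale.Agent.P092.H34.X.NC
import Vale.Agent.P092.H890.W0Fin

/-!
P092, TEAM N, all amplifications (helper34): `SN.X.W0Stmt` from `NJWStmt` (proof of helper890).
-/

set_option linter.all false

open scoped InnerProductSpace ENNReal LinearAlgebra.Projectivization
open Filter Topology ContinuousLinearMap MeasureTheory TopologicalSpace

namespace Vale.Agent.P092.H34.XN

open Vale.Agent.P092.SD (Ms UC)
open Vale.Agent.P092.RC (Cm TRN Moore GG PG YY y0 ct)
open Vale.Agent.P092.H790.CTA (ORBG SIZEG)
open Vale.Agent.P092.H790.CT (PicL)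
open Vale.Agent.P092.SN
open Vale.Agent.P092.H890.W0F hiding w0Stmt_of

section main

variable {k : Type} [NontriviallyNormedField k] [ProperSpace k] [MeasurableSpace k] [BorelSpace k]
  {μ : Measure k} [IsFiniteMeasureOnCompacts μ] [μ.IsOpenPosMeasure]

theorem w0Stmt_of (h0 : NJWStmt k) : X.W0Stmt k μ := by
  intro N E Γ K _ _ _ _ _ _ w ι a a' π lam W Ω m q Z Ec F h
  obtain ⟨D, hD, hcount⟩ := h0 h.adm.hN
  intro c T hT M hM u f hn
  refine kill hD ?_ hT
  intro L hL
  obtain ⟨g, hg⟩ := MulAction.exists_smul_eq (GG k N) (y0 : YY k N) c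
  obtain ⟨A, hA, huA, hAn⟩ := exists_room hn
  have hN := h.adm.hN
  have hj : (0 : Fin (N + 1)) ≠ ⟨1, by omega⟩ := Fin.ne_of_val_ne (by simp)
  -- commutation
  have hcom : ∀ x : GG k N, (∀ M : YY k N, inc (y0 : YY k N) M → ct x • M = M) →
      Commute (wd F L * F M f) (π (ι (g * x * g⁻¹))) := by
    intro x hx
    have h1 : ∀ M' f', inc c M' → Commute (F M' f') (π (ι (g * x * g⁻¹))) := by
      intro M' f' hM'
      have h2 : a' (ι (g * x * g⁻¹)) • M' = M' := by
        rw [h.adm.comp']
        exact conj_fix hx (by rw [hg]; exact hM')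
      have h3 := h.f.pcov (ι (g * x * g⁻¹)) M' f'
      rw [h2] at h3
      have h4 : π (ι (g * x * g⁻¹))⁻¹ * π (ι (g * x * g⁻¹)) = 1 := by
        rw [← map_mul, inv_mul_cancel, map_one]
      have h5 : F M' f' * π (ι (g * x * g⁻¹)) = π (ι (g * x * g⁻¹)) * F M' f' := by
        conv_lhs => rw [← h3]
        rw [mul_assoc, h4, mul_one]
      exact h5
    have h2 : Commute (wd F L) (π (ι (g * x * g⁻¹))) := by
      clear hT
      induction L with
      | nil => exact Commute.one_left _
      | cons p L ih =>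
        rw [wd_cons]
        exact (h1 p.1 p.2 (hL p List.mem_cons_self).1).mul_left
          (ih fun p hp => hL p (List.mem_cons_of_mem _ hp))
    exact h2.mul_left (h1 M f hM)
  have hB : Cm W (wd F L * F M f) := by
    have h1 : ∀ L : List (YY k N × CY k N), Cm W (wd F L) := by
      intro L
      induction L with
      | nil => exact fun w _ => by rw [show wd F [] = 1 from rfl, one_mul, mul_one]
      | cons p L ih =>
        intro w hw
        rw [wd_cons, mul_assoc, ih w hw, ← mul_assoc, h.f.cm p.1 p.2 w hw, mul_assoc]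
    intro w hw
    rw [mul_assoc, h.f.cm M f w hw, ← mul_assoc, h1 L w hw, mul_assoc]
  rw [mul_assoc, ← hg]
  refine XN.e_mul_zero (μ := μ) h hj hB (hcom _ fun M hM => bw_fix w hM)
    (fun s => hcom _ fun M hM => un_fix hj s hM) hA huA ?_
  intro R
  have hns : NInc (closure A) (tsupport (star f)) := by
    have e : tsupport (star f) = tsupport f := by
      rw [tsupport, tsupport]
      congr 1
      ext x
      simp [Function.mem_support]
    rw [e]
    exact hAn
  obtain ⟨T', hT', C, d, hC⟩ := hcount q Z h.ud (F M)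
    ((rv L).map fun p => (F p.1, p.2)) (by
      intro p hp
      obtain ⟨p', hp', rfl⟩ := List.mem_map.1 hp
      rw [rv, List.mem_reverse] at hp'
      obtain ⟨p'', hp'', rfl⟩ := List.mem_map.1 hp'
      exact (hL p'' hp'').2) R A (star f) hns
  refine ⟨T', hT', C, d, fun J hJ S hS => ?_⟩
  have h1 := hC J hJ S hS Ω
  rw [h.pic.nΩ, one_pow, mul_one] at h1
  refine le_trans (le_of_eq (Finset.sum_congr rfl fun γ _ => ?_)) h1
  congr 1
  have e1 : adjoint (wd F L * F M f) = F M (star f) * wd F (rv L) := by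
    rw [← adj_wd, ← star_eq_adjoint, star_mul, ← map_star, star_eq_adjoint]
  have e2 := wd_lam (lam := lam) (F := F) (t := fun γ => ct (q γ)) h.f.cov γ
    ((M, star f) :: rv L) Ω
  rw [e1, ← wd_cons F (M, star f) (rv L), e2, H790.CT.lam_norm (picL h.pic)]
  have e3 : tw (ct (q γ⁻¹)) ((M, star f) :: rv L) =
      (M, act (ct (q γ)⁻¹) (star f)) :: (rv L).map fun p => (p.1, act (ct (q γ)⁻¹) p.2) := by
    rw [tw, List.map_cons]
    simp only [act_inv h.ph]
  rw [e3, wd_cons, wd, List.map_map, List.map_map]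
  rfl

end main

end Vale.Agent.P092.H34.XN
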