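import Vale.Agent.P092.H34.X.NXc

/-!
P092, TEAM N, all amplifications (helper34): the cross-leg step for finite products in the picture
`RC.PicX` (proofs of helper325 with `RC.PicX` in the place of `RC.Pic`).
-/

set_option linter.all false

open scoped InnerProductSpace ENNReal ZeroAtInfty LinearAlgebra.Projectivization
open Filter Topology ContinuousLinearMap MeasureTheory Matrix

namespace Vale.Agent.P092.H34.XN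

section all

open Vale.Agent.P092.RC (Cm TRN GG PG YY)
open Vale.Agent.P092.SN (CY PH UD nm)
open Vale.Agent.P092.H295
open Vale.Agent.P092.H715.Disj (Disj NN nn_comm nn_fix disj_nn sv sv_ne)
open Vale.Agent.P092.H35 (sp)
open Vale.Agent.P092.H35.Sig (sgm)
open Vale.Agent.P092.H325 hiding nXc_gen nXc xc_pt lgI_of' xc_factor pXc pXcN xcStmt

section abs

variable {J : Type} [Fintype J] {G₁ H : J → Type} [∀ j, Group (G₁ j)]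
  [∀ j, TopologicalSpace (G₁ j)] [∀ j, IsTopologicalGroup (G₁ j)] [∀ j, T2Space (G₁ j)]
  [∀ j, LocallyCompactSpace (G₁ j)] [∀ j, SecondCountableTopology (G₁ j)]
  [∀ j, MeasurableSpace (G₁ j)] [∀ j, BorelSpace (G₁ j)] [∀ j, Group (H j)]
variable {G₂ : Type} [Group G₂] [TopologicalSpace G₂] [IsTopologicalGroup G₂] [T2Space G₂]
  [LocallyCompactSpace G₂] [SecondCountableTopology G₂] [MeasurableSpace G₂] [BorelSpace G₂]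
variable {E₀ Γ₁ Γ₂ K : Type} [Group E₀] [TopologicalSpace E₀] [Group Γ₁] [Group Γ₂]
  [NormedAddCommGroup K] [InnerProductSpace ℂ K] [CompleteSpace K]
variable {π₀ : E₀ →* (K →L[ℂ] K)} {lam₁ : Γ₁ →* (K →L[ℂ] K)} {lam₂ : Γ₂ →* (K →L[ℂ] K)}
  {X : Set (K →L[ℂ] K)} {Ω : K} {i : ∀ j, H j →* E₀} {q₁ : ∀ j, Γ₁ →* G₁ j}
  {ι₁ : ∀ j, H j →* G₁ j} {Q₁ : ∀ j, C₀(G₁ j, ℂ) →⋆ₙₐ[ℂ] (K →L[ℂ] K)}
  {QQ₁ : C₀(∀ j, G₁ j, ℂ) →⋆ₙₐ[ℂ] (K →L[ℂ] K)}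
  {q₂ : Γ₂ →* G₂} {ι₂ : ∀ j, H j →* G₂} {QQ₂ : C₀(G₂, ℂ) →⋆ₙₐ[ℂ] (K →L[ℂ] K)}

/-- **a point of the factor `j` of the first leg commutes with the second leg** -/
theorem xc_factor [Countable Γ₁] (ν : ∀ j, Measure (G₁ j)) [∀ j, (ν j).IsHaarMeasure]
    [∀ j, (ν j).IsMulRightInvariant] (μ₂ : Measure G₂) [μ₂.IsHaarMeasure]
    [μ₂.IsMulRightInvariant] (hPic : RC.PicX π₀ lam₁ (X ∪ Set.range lam₂) Ω)
    (tv : ∀ Y, Cm (X ∪ Set.range lam₂) Y → (∀ γ, Y * lam₁ γ = lam₁ γ * Y) → ∀ e : E₀,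
      ⟪π₀ e Ω, Y (π₀ e Ω)⟫_ℂ = ⟪Ω, Y Ω⟫_ℂ)
    (hJ : JL π₀ lam₁ (X ∪ Set.range lam₂) i q₁ ι₁ Q₁ QQ₁)
    (nd₁ : ∀ j ξ, (∀ ψ, Q₁ j ψ ξ = 0) → ξ = 0)
    (disc : ∀ C : Set (∀ j, G₁ j), IsCompact C → {γ | Pi.monoidHom q₁ γ ∈ C}.Finite)
    (adj₂ : ∀ γ, adjoint (lam₂ γ) = lam₂ γ⁻¹)
    (nd₂ : ∀ ξ, (∀ ψ, QQ₂ ψ ξ = 0) → ξ = 0) (cm₂ : ∀ ψ, Cm (X ∪ Set.range lam₁) (QQ₂ ψ))
    (cov₂ : ∀ γ ψ, lam₂ γ * QQ₂ ψ * lam₂ γ⁻¹ = QQ₂ (ltr (q₂ γ) ψ))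
    (pcov₂ : ∀ j (h : H j) ψ, π₀ (i j h) * QQ₂ ψ * π₀ (i j h)⁻¹ = QQ₂ (rtr (ι₂ j h) ψ))
    (j : J) {P : Type} [TopologicalSpace P] [CompactSpace P] [T2Space P] [MulAction (G₁ j) P]
    [ContinuousSMul (G₁ j) P] {y : P} {E : C(P, ℂ) →⋆ₐ[ℂ] (K →L[ℂ] K)}
    (hE : ∀ f ψ, E f * Q₁ j ψ = Q₁ j (mf y f ψ)) {M : Set (H j)}
    (hM : ∀ u ∈ M, ∀ v ∈ M, Commute u v) (fix : ∀ u ∈ M, ι₁ j u • y = y)
    (hD : Disj (ι₁ j) M y) (f : C(P, ℂ)) (χ : C₀(G₂, ℂ)) : Commute (E f) (QQ₂ χ) := by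
  letI : MulAction (∀ j, G₁ j) P := MulAction.compHom P (Pi.evalMonoidHom G₁ j)
  have hs : ∀ (g : ∀ j, G₁ j) (x : P), g • x = g j • x := fun g x => rfl
  haveI : ContinuousSMul (∀ j, G₁ j) P := ⟨by
    have h1 : Continuous fun p : (∀ j, G₁ j) × P => p.1 j • p.2 :=
      ((continuous_apply j).comp continuous_fst).smul continuous_snd
    exact h1⟩
  have hpt : Pt (π₀.comp (i j)) lam₁ (X ∪ Set.range lam₂) (Pi.monoidHom q₁) (sg ι₁ j) y E QQ₁ := by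
    refine ⟨hJ.nd, hJ.cm, hJ.cov, fun h Ψ => ?_, fun f Ψ => ?_⟩
    · rw [MonoidHom.comp_apply, MonoidHom.comp_apply, map_inv]
      exact hJ.pcov j h Ψ
    · exact hJ.mulE (nd₁ j) hE f Ψ _ fun x => rfl
  refine xc_pt (Measure.pi ν) μ₂ (i j) hPic (fun Y h1 h2 h => tv Y h1 h2 (i j h))
    (fun C hC => H715.Xc6.overlap_tsum (Pi.monoidHom q₁) disc hC) hpt adj₂ nd₂ cm₂ cov₂
    (fun h ψ => pcov₂ j h ψ) hM (fun u hu => ?_) ?_ f χ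
  · rw [hs, sg_same]
    exact fix u hu
  · intro ξ hξ
    obtain ⟨V, hV, hm, h⟩ := hD ξ hξ
    refine ⟨V, hV, hm, fun m => ?_⟩
    obtain ⟨n, hn, hd⟩ := h m
    refine ⟨n, hn, fun a b hab x hx x' hx' => ?_⟩
    rw [hs, hs, sg_same, sg_same]
    exact hd a b hab x hx x' hx'

end abs

section pg

variable {J : Type} [Fintype J] {k : J → Type} [∀ j, NontriviallyNormedField (k j)]
  [∀ j, ProperSpace (k j)] {N : J → ℕ}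
variable {E₀ Γ₁ Γ₂ K : Type} [Group E₀] [TopologicalSpace E₀] [Group Γ₁] [Group Γ₂]
  [NormedAddCommGroup K] [InnerProductSpace ℂ K] [CompleteSpace K]
variable {ι : ∀ j, GG (k j) (N j) →* E₀} {π : E₀ →* (K →L[ℂ] K)} {lam₁ : Γ₁ →* (K →L[ℂ] K)}
  {lam₂ : Γ₂ →* (K →L[ℂ] K)} {X : Set (K →L[ℂ] K)} {Ω : K}
  {q₁ : ∀ j, Γ₁ → GG (k j) (N j)} {q₂ : ∀ j, Γ₂ → GG (k j) (N j)}
  {E₁ E₂ : ∀ j, YY (k j) (N j) → (CY (k j) (N j) →⋆ₐ[ℂ] (K →L[ℂ] K))}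
  {σ₁ σ₂ : ∀ j, k j →+* k j}
  {Q₁ Q₂ : ∀ j, C₀(PG (k j) (N j + 1), ℂ) →⋆ₙₐ[ℂ] (K →L[ℂ] K)}

/-- **[N-XC] for products: every factor of the first leg commutes with every factor of the
second.** -/
theorem pXc [Countable Γ₁] (hPic : RC.PicX π lam₁ (X ∪ Set.range lam₂) Ω)
    (tv : ∀ Y, Cm (X ∪ Set.range lam₂) Y → (∀ γ, Y * lam₁ γ = lam₁ γ * Y) → ∀ e : E₀,
      ⟪π e Ω, Y (π e Ω)⟫_ℂ = ⟪Ω, Y Ω⟫_ℂ)
    (adj₂ : ∀ γ, adjoint (lam₂ γ) = lam₂ γ⁻¹) (ph₁ : ∀ j, PH (q₁ j)) (ph₂ : ∀ j, PH (q₂ j))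
    (disc₁ : ∀ C : ℝ, {γ : Γ₁ | ∀ j, nm (q₁ j γ) ≤ C}.Finite)
    (h₁ : ∀ j, ClsI (ι j) π lam₁ (X ∪ Set.range lam₂) (q₁ j) (E₁ j) (σ₁ j) (Q₁ j))
    (pcm₁ : ∀ j' j, j' ≠ j → ∀ (h : GG (k j') (N j')) ψ, Commute (π (ι j' h)) (Q₁ j ψ))
    (com₁ : ∀ j' j, j' ≠ j → ∀ ψ φ, Commute (Q₁ j' ψ) (Q₁ j φ))
    (h₂ : ∀ j, ClsI (ι j) π lam₂ (X ∪ Set.range lam₁) (q₂ j) (E₂ j) (σ₂ j) (Q₂ j))
    (pcm₂ : ∀ j' j, j' ≠ j → ∀ (h : GG (k j') (N j')) ψ, Commute (π (ι j' h)) (Q₂ j ψ))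
    (com₂ : ∀ j' j, j' ≠ j → ∀ ψ φ, Commute (Q₂ j' ψ) (Q₂ j φ))
    (j j' : J) (ψ : C₀(PG (k j) (N j + 1), ℂ)) (φ : C₀(PG (k j') (N j' + 1), ℂ)) :
    Commute (Q₁ j ψ) (Q₂ j' φ) := by
  letI : ∀ j, MeasurableSpace (PG (k j) (N j + 1)) := fun j => borel _
  haveI : ∀ j, BorelSpace (PG (k j) (N j + 1)) := fun j => ⟨rfl⟩
  haveI : ∀ j, (Measure.haar : Measure (PG (k j) (N j + 1))).IsMulRightInvariant := fun j =>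
    H626.rightInv_pg (k j) (N j + 1) _
  have f₁ := fl_of ph₁ h₁ pcm₁ com₁
  have f₂ := fl_of ph₂ h₂ pcm₂ com₂
  obtain ⟨QQ₁, J₁⟩ := f₁.joint
  obtain ⟨QQ₂, J₂⟩ := f₂.joint
  have key : ∀ (y : YY (k j) (N j)) f χ, Commute (E₁ j y f) (QQ₂ χ) := by
    intro y f χ
    haveI : Infinite (k j) := NontriviallyNormedField.infinite (k j)
    obtain ⟨⟨v, hv⟩, rfl⟩ := H820.pj_surj y
    have e : sgm (σ₁ j) (N j + 1) (H820.pj (k j) (Fin (N j + 1)) ⟨v, hv⟩) =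
        H820.pj (k j) (Fin (N j + 1)) ⟨sv (σ₁ j) v, sv_ne (σ₁ j) hv⟩ := rfl
    exact xc_factor (fun j => (Measure.haar : Measure (PG (k j) (N j + 1))))
      (Measure.pi fun j => (Measure.haar : Measure (PG (k j) (N j + 1)))) hPic tv J₁ f₁.nd
      (disc_pi ph₁ disc₁) adj₂ J₂.nd J₂.cm J₂.cov J₂.pcov j
      (y := H820.pj (k j) (Fin (N j + 1)) ⟨sv (σ₁ j) v, sv_ne (σ₁ j) hv⟩)
      (fun f ψ => (h₁ j).mulE _ f ψ _ fun x => rfl) (M := NN v)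
      (fun u hu u' hu' => nn_comm v hu hu') (fun u hu => nn_fix (σ₁ j) hv hu)
      (disj_nn (σ₁ j) (H35.Sig.unb (σ₁ j)) _ (fun h x => rfl) hv) f χ
  refine J₂.comm (fun χ => ?_) j' φ
  exact ((h₁ j).gen (T := QQ₂ χ) (fun y f => (key y f χ).symm) ψ).symm

end pg

open Vale.Agent.P092.SN (Adm ClsN TVE)

section prod

variable {J : Type} [Fintype J] {k : J → Type} [∀ j, NontriviallyNormedField (k j)]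
  [∀ j, ProperSpace (k j)] {N : J → ℕ}
variable {E₀ Γ₁ Γ₂ K : Type} [Group E₀] [TopologicalSpace E₀] [Group Γ₁] [Group Γ₂]
  [NormedAddCommGroup K] [InnerProductSpace ℂ K] [CompleteSpace K]
variable {ι : ∀ j, GG (k j) (N j) →* E₀} {a a' : ∀ j, E₀ →* PG (k j) (N j + 1)}
  {π : E₀ →* (K →L[ℂ] K)} {lam₁ : Γ₁ →* (K →L[ℂ] K)}
  {lam₂ : Γ₂ →* (K →L[ℂ] K)} {X : Set (K →L[ℂ] K)} {Ω : K}
  {q₁ : ∀ j, Γ₁ → GG (k j) (N j)} {q₂ : ∀ j, Γ₂ → GG (k j) (N j)}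
  {E₁ E₂ : ∀ j, YY (k j) (N j) → (CY (k j) (N j) →⋆ₐ[ℂ] (K →L[ℂ] K))}
  {σ₁ σ₂ : ∀ j, k j →+* k j}
  {Q₁ Q₂ : ∀ j, C₀(PG (k j) (N j + 1), ℂ) →⋆ₙₐ[ℂ] (K →L[ℂ] K)}

/-- **[N-XC] for finite products** (every factor of leg 1 against every factor of leg 2). `ι j`,
`a j`: the factor `j` of the source group `E₀`, which acts trivially on the points of the other
factors (`triv`). -/
theorem pXcN [Countable Γ₁] (hA : ∀ j, Adm (ι j) (a j) (a' j))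
    (triv : ∀ j' j, j' ≠ j → ∀ (h : GG (k j') (N j')) (b : YY (k j) (N j)), a j (ι j' h) • b = b)
    (hPic : RC.PicX π lam₁ (X ∪ Set.range lam₂) Ω) (tv : TVE π lam₁ (X ∪ Set.range lam₂) Ω)
    (adj₂ : ∀ γ, adjoint (lam₂ γ) = lam₂ γ⁻¹) (ph₁ : ∀ j, PH (q₁ j)) (ph₂ : ∀ j, PH (q₂ j))
    (disc₁ : ∀ C : ℝ, {γ : Γ₁ | ∀ j, nm (q₁ j γ) ≤ C}.Finite)
    (h₁ : ∀ j, ClsN (a j) π lam₁ (X ∪ Set.range lam₂) (q₁ j) (E₁ j) (σ₁ j) (Q₁ j))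
    (com₁ : ∀ j' j, j' ≠ j → ∀ ψ φ, Commute (Q₁ j' ψ) (Q₁ j φ))
    (h₂ : ∀ j, ClsN (a j) π lam₂ (X ∪ Set.range lam₁) (q₂ j) (E₂ j) (σ₂ j) (Q₂ j))
    (com₂ : ∀ j' j, j' ≠ j → ∀ ψ φ, Commute (Q₂ j' ψ) (Q₂ j φ))
    (j j' : J) (ψ : C₀(PG (k j) (N j + 1), ℂ)) (φ : C₀(PG (k j') (N j' + 1), ℂ)) :
    Commute (Q₁ j ψ) (Q₂ j' φ) :=
  pXc hPic (fun Y h1 h2 e => tv Y ⟨h1, h2⟩ e) adj₂ ph₁ ph₂ disc₁
    (fun j => clsI_of (hA j) (h₁ j))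
    (fun j' j hj h ψ => ClsN_comm (h₁ j) (fun b => triv j' j hj h b) ψ) com₁
    (fun j => clsI_of (hA j) (h₂ j))
    (fun j' j hj h ψ => ClsN_comm (h₂ j) (fun b => triv j' j hj h b) ψ) com₂ j j' ψ φ

end prod

end all

end Vale.Agent.P092.H34.XN
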