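import Vale.Agent.P092.H515.HPos2

/-!
P092 (helper34, from helper515's HPos2), Team N, [N-GAPB] for products, any masses with `SharpData`.
-/

set_option linter.all false

open scoped InnerProductSpace ENNReal
open Filter Topology Matrix ContinuousLinearMap MeasureTheory

namespace Vale.Agent.P092.H34.HMK

open Vale.Agent.P092.H515 (GSys)
open Vale.Agent.P092.H515.HP (lab lab_inj lab_lt part mem_part lab_mem_part card_part other_large
  mrp_ph)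
open Vale.Agent.P092.H933 (LocK BCart)
open Vale.Agent.P092.H534.GK (Crt)
open Vale.Agent.P092.H221.GapsC (lg gsys_crt2_fam pos_gap bcart_of_crt)
open Vale.Agent.P092.H200 Vale.Agent.P092.H761
open Vale.Agent.P092.H538 (ind ind_pos ind_neg ind_nonneg)
open Vale.Agent.P092.RC (GG PG YY ct)
open Vale.Agent.P092.H261 (PingT)
open Vale.Agent.P092.SN (PH nm bw)
open Vale.Agent.P092.H218.NR (HMIA pos_final hcc_of)
open Vale.Agent.P092.H411.ChS (sg)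
open Vale.Agent.P092.H618.HMK (Tests)
open Vale.Agent.P092.H584.Tau (hs_mem)

section main

variable {I : Type} [Fintype I] [DecidableEq I] {k : I → Type}
  [∀ i, NontriviallyNormedField (k i)] [∀ i, ProperSpace (k i)] {N : I → ℕ}
  {E : Type} [Group E] [TopologicalSpace E] [IsTopologicalGroup E] [MeasurableSpace E]
  [BorelSpace E] {Γ : Type} [Group Γ] [DecidableEq Γ] {t : ℝ} {mass : E → (Γ → ℝ) → ℝ}

/-- **[P-HPOS]**, any masses: the powers of the wall element of one source factor. -/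
theorem pos_absP (hd : SharpData t mass (fun K : Set E => IsCompact K) (PingT E)) (hk : ∀ j, LocK (k j)) (hN : ∀ j, 0 < N j) {q : ∀ j, Γ → GG (k j) (N j)}
    (hq : ∀ j, PH (q j)) (disc : ∀ C : ℝ, {γ : Γ | ∀ j, nm (q j γ) ≤ C}.Finite)
    {k₀ : Type} [NontriviallyNormedField k₀] [ProperSpace k₀] {m : ℕ} (hm : 0 < m)
    {ι : GG k₀ (m + 1) →* E} {a : E →* PG k₀ (m + 2)} (hι : Continuous ι)
    (hcomp : ∀ g, a (ι g) = H35.sp k₀ (m + 2) g) {w : k₀ˣ} (hw : ‖(w : k₀)‖ < 1)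
    (j : I) (hj : N j = m + 1)
    (ht : ∀ ε : ℝ, 0 < ε → ∃ r : ℝ, ∀ g : GG k₀ (m + 1),
      mass (ι g) (ind fun γ => ∃ j', j' ≠ j ∧ r < nm (q j' γ)) ≤ ε)
    {z : E} (hz : z ∈ ι.range) (hzσ : ∀ n s, z ^ n * sg ι s = sg ι s * z ^ n)
    (hch : ∃ (b : Fin (m + 1) → ℕ → E) (𝒦 : Fin (m + 1) → Set E),
      GChain (fun K : Set E => IsCompact K) (PingT E) (m + 1) b 𝒦 ∧
      (∀ M, b 0 M = z ^ M) ∧ (∀ j M, sg ι (H411.ChS.bS w j M) = b j.succ M) ∧
      ∀ j, sg ι '' H411.ChS.KS k₀ j = 𝒦 j.succ)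
    (hmi : ∀ {J : Type} [Fintype J] [DecidableEq J] {r : ℕ} {gap : J → Γ → ℝ} {cl : J → Fin r}
      {A : Finset (Fin r)} {i₀ : J}, Gaps gap cl → Tests gap cl A i₀ →
      HMIA mass gap cl A i₀ (fun n => z ^ n) (sg ι) (cocompact (GG k₀ m)))
    {ε : ℝ} (hε : 0 < ε) :
    ∃ r : ℝ, ∀ᶠ n : ℕ in atTop, mass (z ^ n) (ind fun γ => r < H337.NG.G2 (q j γ) ∧
      r < H337.NG.G2 (ct (q j γ))) ≤ ε := by
  haveI : Nonempty I := ⟨j⟩
  obtain ⟨gap, wt, hs, hfin, -, -, -, hcrt, -⟩ := gsys_crt2_fam (n := fun i => N i + 1) hk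
    (fun i => by have := hN i; omega) q hq disc
  obtain ⟨b, 𝒦, hch, hb0, hbS, hKS⟩ := hch
  have hbz : b 0 = fun n => z ^ n := funext hb0
  have hcl := lab_inj fun i => N i + 1 - 1
  have hg : Gaps gap (lab fun i => N i + 1 - 1) := hs.gaps hfin _
    (fun R => ⟨R, fun i i' h g hg => by rw [← hcl h]; exact hg⟩)
  obtain ⟨c, C, hc, hC⟩ := hcrt j
  -- the set off the coordinate
  have hA : ∀ ε : ℝ, 0 < ε → ∃ R : ℝ, ∀ u, HS b (m + 1) u →
      mass u (ind fun g => ∃ a, a ∉ part (fun i => N i + 1 - 1) j ∧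
        a ∈ big gap (lab fun i => N i + 1 - 1) R g) ≤ ε := by
    intro ε hε
    obtain ⟨r, hr⟩ := ht ε hε
    obtain ⟨R, hR⟩ := other_large (q := q) (gap := gap) hcrt j r
    refine ⟨R, fun u hu => ?_⟩
    have hmem : u ∈ ι.range := by
      refine hs_mem (S := ι.range) (fun x M => ?_) hu
      refine Fin.cases ?_ (fun x => ?_) x
      · rw [hb0]; exact pow_mem hz M
      · rw [← hbS]; exact ⟨_, rfl⟩
    obtain ⟨g, rfl⟩ := hmem
    have h1 := hd.ind_mono (ι g) (P := fun γ => ∃ a, a ∉ part (fun i => N i + 1 - 1) j ∧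
        a ∈ big gap (lab fun i => N i + 1 - 1) R γ)
      (Q := fun γ => ∃ j', j' ≠ j ∧ r < nm (q j' γ)) (fun γ hγ => by
        obtain ⟨j', hj', x, y, hxy⟩ := hR γ hγ
        exact ⟨j', hj', hxy.trans_le (H776.NG.le_nmx (q j' γ).1 x y)⟩)
    exact h1.trans (hr g)
  -- the middle gaps
  obtain ⟨Mid, hMid⟩ : ∃ Mid : (Σ i, Fin (N i + 1 - 1)) → Prop, ∀ x, Mid x ↔
      ∃ l : Fin (N j + 1 - 1), 0 < (l : ℕ) ∧ (l : ℕ) + 1 < N j + 1 - 1 ∧ x = ⟨j, l⟩ :=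
    ⟨_, fun x => Iff.rfl⟩
  have hGH : ∀ R : ℝ, ∃ ρ : ℝ, ∀ γ, ρ < H337.NG.G2 (q j γ) → ρ < H337.NG.G2 (ct (q j γ)) →
      (2 ≤ (big gap (lab fun i => N i + 1 - 1) R γ).card ∨ ∃ i, Mid i ∧ R ≤ gap i γ) := by
    intro R
    obtain ⟨ρ, hρ⟩ := pos_gap (k := k j) (n := N j + 1) (by have := hN j; omega) hc (max C 1) R
    refine ⟨ρ, fun γ h1 h2 => ?_⟩
    have hdet : (q j γ).1.det = 1 := (q j γ).2
    have hB : BCart (q j γ).1 (fun l => gap ⟨j, l⟩ γ) c (max C 1) := by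
      obtain ⟨a, U, U', V, V', H, hx⟩ := hC γ
      exact bcart_of_crt H (H.ne (by rw [hdet]; exact one_ne_zero)) (le_max_right _ _)
        fun l => (hx l).trans (le_max_left _ _)
    rw [H776.NG.G2_eq] at h1
    have h2 : ρ < H776.NG.G2 ((q j γ).1)⁻¹ := by
      rw [← H776.NG.G2_inv_eq, ← H337.NG.G2_ta]
      exact h2
    rcases hρ (q j γ).1 (fun l => gap ⟨j, l⟩ γ) (by rw [hdet, norm_one]) hB h1 h2 with
      ⟨x, y, hxy, hx, hy⟩ | ⟨l, hl0, hl1, hl⟩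
    · refine Or.inl (Finset.one_lt_card.2 ⟨_, mem_big.2 ⟨⟨j, x⟩, rfl, hx⟩, _,
        mem_big.2 ⟨⟨j, y⟩, rfl, hy⟩, fun h => hxy ?_⟩)
      exact eq_of_heq (Sigma.mk.inj_iff.1 (hcl h)).2
    · refine Or.inr ⟨⟨j, l⟩, (hMid _).2 ⟨l, by omega, ?_, rfl⟩, hl⟩
      have := l.2
      omega
  have hHM : ∀ i₀, Mid i₀ → HMIA mass gap (lab fun i => N i + 1 - 1)
      (part (fun i => N i + 1 - 1) j) i₀ (b 0) (sg ι) (cocompact (GG k₀ m)) := by
    intro i₀ h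
    obtain ⟨l, hl0, hl1, rfl⟩ := (hMid _).1 h
    rw [hbz]
    refine hmi hg ?_
    exact H100.Ker.tests_of (M := fun γ => (q j γ).1) (mrp_ph (hq j)) (fun l => ⟨j, l⟩)
      (fun x y hxy => (lab_lt fun i => N i + 1 - 1).2 hxy) (fun x y hxy => hcl hxy)
      (fun y => lab_mem_part.2 rfl) hc hC l hl0 hl1
  have hcard : (part (fun i => N i + 1 - 1) j).card = m + 1 := by
    rw [card_part, hj]
    rfl
  obtain ⟨ρ, hρ⟩ := pos_final (S := GG k₀ m) (σ := sg ι) (A := part (fun i => N i + 1 - 1) j)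
    hd hg (fun θ _ _ => hs.geo' hfin θ) hch hm hcard hA (fun n s => by rw [hb0]; exact hzσ n s)
    (H411.ChS.sg_inj hcomp) hbS hKS (hcc_of (H411.ChS.sg_cont hι)) (H411.ChS.bS_tendsto hw hm)
    hHM hGH hε
  exact ⟨ρ, hρ.mono fun n hn => by rw [hb0] at hn; exact hn⟩

end main

end Vale.Agent.P092.H34.HMK
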