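import Vale.Agent.P092.H34.X.PosHH
import Vale.Agent.P092.H34.X.PosP

/-!
P092 (helper34), Team N, [N-GAPB] for products, all amplifications: the positions for every honest
family, one factor of the source and one coordinate of the target.
-/

set_option linter.all false

open scoped InnerProductSpace ENNReal
open Filter Topology ContinuousLinearMap MeasureTheory TopologicalSpace

namespace Vale.Agent.P092.H34.HMK

open Vale.Agent.P092.SR Vale.Agent.P092.H160 Vale.Agent.P092.H103 Vale.Agent.P092.H962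
open Vale.Agent.P092.RC (PicF Moore GG PG YY ct adjV3)
open Vale.Agent.P092.SN (nm PH bw)
open Vale.Agent.P092.H933 (LocK)
open Vale.Agent.P092.H337.NG (G2)
open Vale.Agent.P092.H538 (ind)
open Vale.Agent.P092.H21 (Hon mT WT)
open Vale.Agent.P092.SNT (TVEF tv_tri)

section fam

variable {E : Type} [Group E] [TopologicalSpace E] [IsTopologicalGroup E] [LocallyCompactSpace E]
  [SecondCountableTopology E] [T2Space E] [MeasurableSpace E] [BorelSpace E]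
  {Γ : Subgroup E} [DiscreteTopology Γ] [Countable Γ] [MeasurableSpace (E ⧸ Γ)]
  [BorelSpace (E ⧸ Γ)] {ν : Measure (E ⧸ Γ)} [IsProbabilityMeasure ν]
  (hν : ∀ g : E, ν.map (fun x => g • x) = ν)
  {κ κ' ℋ : Type} [Fintype κ] [Fintype κ'] [NormedAddCommGroup ℋ] [InnerProductSpace ℂ ℋ]
  [CompleteSpace ℋ] {V R₁ R₂ : Γ →* (ℋ →L[ℂ] ℋ)} {ξ : κ → ℋ} {ξ' : κ' → ℋ}
  (hT : Tri V R₁ R₂ ξ) (hh : Hon R₁ R₂ ξ) (hT' : Tri R₁ V R₂ ξ')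
  (hΓ : ∀ g : Γ, g ≠ 1 → Set.Infinite {y : Γ | ∃ h, y = h * g * h⁻¹})

include hh hT' hΓ in
/-- from vectors to masses -/
theorem mX_of_vec {c : ℂ} (hc : c ≠ 0) {X : Type} {u : X → E} {S : ℝ → Set Γ}
    (h : ∀ ε : ℝ, 0 < ε → ∃ r : ℝ, ∀ x, ∀ i, ‖H859.CL.st (mT (H85.cdat ν hν) hT) (S r)
      (H34.Ind.pi (H85.cdat ν hν) (V := V) hT.adjV (u x)
        (Lp.const 2 (H85.cdat ν hν).μ (c • ξ i)))‖ ≤ ε) {ε : ℝ} (hε : 0 < ε) :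
    ∃ r : ℝ, ∀ x, mX hν hT (u x) (ind fun γ => γ ∈ S r) ≤ ε := by
  have hc0 : 0 < ‖c‖ := norm_pos_iff.2 hc
  obtain ⟨δ, hδ⟩ : ∃ δ, δ = ‖c‖ * Real.sqrt (ε / (Fintype.card κ + 1)) := ⟨_, rfl⟩
  have hs : 0 < ε / ((Fintype.card κ : ℝ) + 1) := by positivity
  have hδ0 : 0 < δ := by rw [hδ]; exact mul_pos hc0 (Real.sqrt_pos.2 hs)
  obtain ⟨r, hr⟩ := h δ hδ0
  refine ⟨r, fun x => ?_⟩
  rw [mX_ind hν hT hh hT' hΓ]
  have h1 : ∀ i, ‖H859.CL.st (mT (H85.cdat ν hν) hT) (S r)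
      (H34.Ind.pi (H85.cdat ν hν) (V := V) hT.adjV (u x)
        (Lp.const 2 (H85.cdat ν hν).μ (ξ i)))‖ ^ 2 ≤ ε / ((Fintype.card κ : ℝ) + 1) := by
    intro i
    have h2 := hr x i
    have e1 : (Lp.const 2 (H85.cdat ν hν).μ (c • ξ i) : Lp ℋ 2 (H85.cdat ν hν).μ) =
        c • Lp.const 2 (H85.cdat ν hν).μ (ξ i) := rfl
    rw [e1, map_smul, map_smul, norm_smul, hδ] at h2
    have h3 := le_of_mul_le_mul_left h2 hc0
    have h4 := pow_le_pow_left₀ (norm_nonneg _) h3 2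
    rwa [Real.sq_sqrt hs.le] at h4
  calc _ ≤ ∑ i : κ, ε / ((Fintype.card κ : ℝ) + 1) := Finset.sum_le_sum fun i _ => h1 i
    _ = Fintype.card κ * (ε / ((Fintype.card κ : ℝ) + 1)) := by
        rw [Finset.sum_const, Finset.card_univ, nsmul_eq_mul]
    _ ≤ (Fintype.card κ + 1) * (ε / ((Fintype.card κ : ℝ) + 1)) :=
        mul_le_mul_of_nonneg_right (by linarith) hs.le
    _ = ε := by field_simp

variable {κ₀ : Type} [Fintype κ₀] {Ω : κ₀ → Lp ℋ 2 (H85.cdat ν hν).μ}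
  (pic : PicF (H34.Ind.pi (H85.cdat ν hν) (V := V) hT.adjV) (H34.Ind.lam (H85.cdat ν hν) R₁)
    (WT (H85.cdat ν hν) R₂) Ω)
  (htv : TVEF (H34.Ind.pi (H85.cdat ν hν) (V := V) hT.adjV) (H34.Ind.lam (H85.cdat ν hν) R₁)
    (WT (H85.cdat ν hν) R₂) Ω)

include hh hT' hΓ pic htv in
/-- **[P-HPOS] for the honest family**: vectors. -/
theorem posP_vec {I : Type} [Fintype I] [DecidableEq I] {k : I → Type}
    [∀ i, NontriviallyNormedField (k i)] [∀ i, ProperSpace (k i)] {N : I → ℕ}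
    (hk : ∀ j, LocK (k j)) (hN : ∀ j, 0 < N j) {q : ∀ j, Γ → GG (k j) (N j)}
    (hq : ∀ j, PH (q j)) (disc : ∀ C : ℝ, {γ : Γ | ∀ j, nm (q j γ) ≤ C}.Finite)
    {k₀ : Type} [NontriviallyNormedField k₀] [ProperSpace k₀] (hk₀ : LocK k₀) {N₀ : ℕ}
    (hN₀ : 2 ≤ N₀) {ι : GG k₀ N₀ →* E} {a : E →* PG k₀ (N₀ + 1)}
    (hι : Continuous ι) (ha : Continuous a) (hcomp : ∀ g (x : YY k₀ N₀), a (ι g) • x = g • x)
    {w : k₀ˣ} (hw : ‖(w : k₀)‖ < 1) (j : I) (hj : N j = N₀) {c : ℂ} (hc : c ≠ 0)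
    (ht : ∀ ε : ℝ, 0 < ε → ∃ r : ℝ, ∀ g : GG k₀ N₀, ∀ i,
      ‖H859.CL.st (mT (H85.cdat ν hν) hT) {γ | ∃ j', j' ≠ j ∧ r < nm (q j' γ)}
        (H34.Ind.pi (H85.cdat ν hν) (V := V) hT.adjV (ι g)
          (Lp.const 2 (H85.cdat ν hν).μ (c • ξ i)))‖ ≤ ε)
    {b : E} (hb : b = ι (bw w) ∨ b = (ι (bw w))⁻¹) (i : κ) {ε : ℝ} (hε : 0 < ε) :
    ∃ r : ℝ, ∀ᶠ n : ℕ in atTop, ‖H859.CL.st (mT (H85.cdat ν hν) hT)
      {γ | r < G2 (q j γ) ∧ r < G2 (ct (q j γ))}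
      (H34.Ind.pi (H85.cdat ν hν) (V := V) hT.adjV (b ^ n)
        (Lp.const 2 (H85.cdat ν hν).μ (c • ξ i)))‖ ≤ ε := by
  classical
  obtain ⟨m, rfl⟩ : ∃ m, N₀ = m + 1 := ⟨N₀ - 1, by omega⟩
  have hm : 0 < m := by omega
  have hcc : ∀ g, a (ι g) = H35.sp k₀ (m + 2) g := fun g => H776.NE.eq_sp hcomp g
  have ht' := fun (ε : ℝ) (hε : 0 < ε) => mX_of_vec hν hT hh hT' hΓ hc (u := fun g => ι g)
    (S := fun r => {γ | ∃ j', j' ≠ j ∧ r < nm (q j' γ)}) ht hε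
  have hd := sharp_mX hν hT hT' hΓ
  rcases hb with rfl | rfl
  · exact vec_of_mX hν hT hh hT' hΓ (S := fun r => {γ | r < G2 (q j γ) ∧ r < G2 (ct (q j γ))})
      (fun ε hε => pos_absP hd hk hN hq disc hm hι hcc hw j hj ht' ⟨_, rfl⟩
        (fun n s => H411.ChS.sg_comm_pow w n s) (H411.ChS.exists_chain hι ha hcc hw)
        (fun hg hTs => hmiT_A hν hT hh hT' hΓ pic htv hk₀ (by omega) hι hw hg hTs) hε) c i hε
  · exact vec_of_mX hν hT hh hT' hΓ (S := fun r => {γ | r < G2 (q j γ) ∧ r < G2 (ct (q j γ))})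
      (fun ε hε => pos_absP hd hk hN hq disc hm hι hcc hw j hj ht' (z := (ι (bw w))⁻¹)
        ⟨(bw w)⁻¹, map_inv _ _⟩
        (fun n s => H411.ChS.sg_comm_inv_pow w n s) (H411.ChS.exists_chain_inv hι ha hcc hw)
        (fun hg hTs => hmiT_inv hν hT hh hT' hΓ pic htv hk₀ (by omega) hι hw hg hTs) hε) c i hε

end fam

section hh

variable {E : Type} [Group E] [TopologicalSpace E] [IsTopologicalGroup E] [LocallyCompactSpace E]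
  [SecondCountableTopology E] [T2Space E] [NoncompactSpace E] [MeasurableSpace E] [BorelSpace E]
  {Γ : Subgroup E} [DiscreteTopology Γ] [Countable Γ] [MeasurableSpace (E ⧸ Γ)]
  [BorelSpace (E ⧸ Γ)] {ν : Measure (E ⧸ Γ)} [IsProbabilityMeasure ν]
  (hν : ∀ g : E, ν.map (fun x => g • x) = ν)
  (hΓ : ∀ g : Γ, g ≠ 1 → Set.Infinite {y : Γ | ∃ h, y = h * g * h⁻¹})
  {Λ : Type} [Group Λ] [Countable Λ]
  (hΛ : ∀ s : Λ, s ≠ 1 → Set.Infinite {y : Λ | ∃ h, y = h * s * h⁻¹})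
  {I₀ : Type} [Fintype I₀] {α : Γ → (Ell2 (I₀ × Λ) →L[ℂ] Ell2 (I₀ × Λ))} (hα : AF α)
  {κ : Type} [Fintype κ] {ξ : κ → HH (PT α α α)}
  (hT : Tri (V3 hα hα hα) (A3R hα hα hα) (B3R hα hα hα) ξ)

include hΓ hΛ in
/-- **[P-HPOS], all amplifications**: the input `ht` is the output of `H337.NG.TW.tau_outF`. -/
theorem posP_HH (hh : Hon (A3R hα hα hα) (B3R hα hα hα) ξ) {I : Type} [Fintype I] [DecidableEq I]
    {k : I → Type} [∀ i, NontriviallyNormedField (k i)] [∀ i, ProperSpace (k i)] {N : I → ℕ}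
    (hk : ∀ j, LocK (k j)) (hN : ∀ j, 0 < N j) {q : ∀ j, Γ → GG (k j) (N j)}
    (hq : ∀ j, PH (q j)) (disc : ∀ C : ℝ, {γ : Γ | ∀ j, nm (q j γ) ≤ C}.Finite)
    {k₀ : Type} [NontriviallyNormedField k₀] [ProperSpace k₀] (hk₀ : LocK k₀) {N₀ : ℕ}
    (hN₀ : 2 ≤ N₀) {ι : GG k₀ N₀ →* E} {a : E →* PG k₀ (N₀ + 1)}
    (hι : Continuous ι) (ha : Continuous a) (hcomp : ∀ g (x : YY k₀ N₀), a (ι g) • x = g • x)
    {w : k₀ˣ} (hw : ‖(w : k₀)‖ < 1) (j : I) (hj : N j = N₀)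
    (ht : ∀ ε : ℝ, 0 < ε → ∃ r : ℝ, ∀ g : GG k₀ N₀, ∀ i,
      ‖H859.CL.st (mT (H85.cdat ν hν) hT) {γ | ∃ j', j' ≠ j ∧ r < nm (q j' γ)}
        (H34.Ind.pi (H85.cdat ν hν) (V := V3 hα hα hα) hT.adjV (ι g) (AmpE.nrm hν ξ i))‖ ≤ ε)
    {b : E} (hb : b = ι (bw w) ∨ b = (ι (bw w))⁻¹) (i : κ) {ε : ℝ} (hε : 0 < ε) :
    ∃ r : ℝ, ∀ᶠ n : ℕ in atTop, ‖H859.CL.st (mT (H85.cdat ν hν) hT)
      {γ | r < G2 (q j γ) ∧ r < G2 (ct (q j γ))}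
      (H34.Ind.pi (H85.cdat ν hν) (V := V3 hα hα hα) hT.adjV (b ^ n) (AmpE.nrm hν ξ i))‖ ≤ ε := by
  obtain ⟨m', m'', ζ, h'⟩ := exists_tri' hα hα hα hΛ
  exact posP_vec hν hT hh h' hΓ (picE_HH hν hΓ hΛ hα hT) (tvE_HH hν hα hT) hk hN hq disc hk₀ hN₀
    hι ha hcomp hw j hj (c := (((Real.sqrt (∑ j, ‖ξ j‖ ^ 2))⁻¹ : ℝ) : ℂ)) (RC.nrm_ne hT.ne) ht hb i
    hε

end hh

end Vale.Agent.P092.H34.HMK
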