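import Vale.Agent.P092.H515.ScF
import Vale.Agent.P092.SNT.Cl
import Vale.Agent.P092.H34.X.HMK

/-!
P092 (helper34, from helper515's ScF), Team N, [N-GAPB], all amplifications: (sc') for a factor of
the source group, for a picture with a finite family of vectors.
-/

set_option linter.all false

open scoped InnerProductSpace ENNReal
open Filter Topology ContinuousLinearMap

namespace Vale.Agent.P092.H34.HMK

open Vale.Agent.P092.RC (Cm TRN TRNF Moore Pic PicF)
open Vale.Agent.P092.SD (MM)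
open Vale.Agent.P092.SNT (TVEF)
open Vale.Agent.P092.H515.Tau (moore_pre)
open Vale.Agent.P092.H618.HMK (Sc ZN)

section sc

variable {E G Γ K : Type} [Group E] [TopologicalSpace E] [Group G] [TopologicalSpace G] [Group Γ]
  [NormedAddCommGroup K] [InnerProductSpace ℂ K] [CompleteSpace K] {π : E →* (K →L[ℂ] K)}
  {lam : Γ →* (K →L[ℂ] K)} {W : Set (K →L[ℂ] K)} {κ : Type} [Fintype κ] {Ω : κ → K}

theorem pi_nrmF (hP : PicF π lam W Ω) (g : E) (ξ : K) : ‖π g ξ‖ = ‖ξ‖ := by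
  have h1 : ⟪π g ξ, π g ξ⟫_ℂ = ⟪ξ, ξ⟫_ℂ := by
    rw [← adjoint_inner_right, hP.adjP, ← ContinuousLinearMap.mul_apply, ← map_mul,
      inv_mul_cancel, map_one]
    rfl
  rw [inner_self_eq_norm_sq_to_K, inner_self_eq_norm_sq_to_K] at h1
  have h2 : ‖π g ξ‖ ^ 2 = ‖ξ‖ ^ 2 := by exact_mod_cast h1
  exact (pow_left_inj₀ (norm_nonneg _) (norm_nonneg _) two_ne_zero).1 h2

/-- **(sc') for a factor.** -/
theorem sc_facF [IsTopologicalGroup G] (hP : PicF π lam W Ω) (htv : TVEF π lam W Ω)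
    {ι : G →* E} (hι : Continuous ι) {S : Set G} (hS : Moore S) {T : K →L[ℂ] K}
    (hT : Cm W T) (hl : ∀ γ, T * lam γ = lam γ * T)
    (hc : ∀ g ∈ S, T * π (ι g) = π (ι g) * T) (g : G) : T * π (ι g) = π (ι g) * T := by
  have hinv : ∀ g : E, π g * π g⁻¹ = 1 := fun g => by rw [← map_mul, mul_inv_cancel, map_one]
  have hinv' : ∀ g : E, π g⁻¹ * π g = 1 := fun g => by rw [← map_mul, inv_mul_cancel, map_one]
  -- the algebra
  obtain ⟨A, hA⟩ : ∃ A : Submodule ℂ (K →L[ℂ] K), ∀ T, T ∈ A ↔ T ∈ MM lam W := by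
    refine ⟨{ carrier := MM lam W
              add_mem' := ?_
              zero_mem' := ?_
              smul_mem' := ?_ }, fun T => Iff.rfl⟩
    · rintro X Y ⟨h1, h2⟩ ⟨h3, h4⟩
      exact ⟨fun w hw => by rw [add_mul, mul_add, h1 w hw, h3 w hw],
        fun γ => by rw [add_mul, mul_add, h2, h4]⟩
    · exact ⟨fun w hw => by rw [zero_mul, mul_zero], fun γ => by rw [zero_mul, mul_zero]⟩
    · rintro c X ⟨h1, h2⟩
      exact ⟨fun w hw => by rw [smul_mul_assoc, mul_smul_comm, h1 w hw],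
        fun γ => by rw [smul_mul_assoc, mul_smul_comm, h2]⟩
  have hconj : ∀ (e : E) (X : K →L[ℂ] K), X ∈ A → π e * X * π e⁻¹ ∈ A := by
    intro e X hX
    rw [hA] at hX ⊢
    refine ⟨fun w hw => ?_, fun γ => ?_⟩
    · have h1 := hX.1 (π e⁻¹ * w * π e) (by
        have := hP.WP w hw e⁻¹
        rwa [inv_inv] at this)
      have h1 : X * (π e⁻¹ * w * π e) = (π e⁻¹ * w * π e) * X := h1
      calc π e * X * π e⁻¹ * w = π e * X * π e⁻¹ * w * (π e * π e⁻¹) := by rw [hinv, mul_one]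
        _ = π e * (X * (π e⁻¹ * w * π e)) * π e⁻¹ := by simp only [mul_assoc]
        _ = π e * ((π e⁻¹ * w * π e) * X) * π e⁻¹ := by rw [h1]
        _ = (π e * π e⁻¹) * w * (π e * X * π e⁻¹) := by simp only [mul_assoc]
        _ = _ := by rw [hinv, one_mul]
    · have h1 := hX.2 γ
      have c1 := hP.comm e γ
      have c2 := hP.comm e⁻¹ γ
      calc π e * X * π e⁻¹ * lam γ = π e * (X * lam γ) * π e⁻¹ := by
            rw [mul_assoc, c2]; simp only [mul_assoc]
        _ = (π e * lam γ) * X * π e⁻¹ := by rw [h1]; simp only [mul_assoc]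
        _ = lam γ * (π e * X * π e⁻¹) := by rw [c1]; simp only [mul_assoc]
  have hadj : ∀ X ∈ A, adjoint X * X ∈ A := by
    intro X hX
    rw [hA] at hX ⊢
    have hX' : ∀ w ∈ W, adjoint X * w = w * adjoint X := fun w hw => by
      have h1 := hX.1 (adjoint w) (hP.Wadj w hw)
      have h2 := congrArg (fun T : K →L[ℂ] K => star T) h1
      simp only [star_mul, star_eq_adjoint, adjoint_adjoint] at h2
      exact h2.symm
    have hX2 : ∀ γ, adjoint X * lam γ = lam γ * adjoint X := fun γ => by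
      have h1 := hX.2 γ⁻¹
      have h2 := congrArg (fun T : K →L[ℂ] K => star T) h1
      simp only [star_mul, star_eq_adjoint, hP.adjL, inv_inv] at h2
      exact h2.symm
    refine ⟨fun w hw => ?_, fun γ => ?_⟩
    · rw [mul_assoc, hX.1 w hw, ← mul_assoc, hX' w hw, mul_assoc]
    · rw [mul_assoc, hX.2 γ, ← mul_assoc, hX2 γ, mul_assoc]
  obtain ⟨j, hj⟩ : ∃ j : A →ₗ[ℂ] PiLp 2 (fun _ : κ => K), ∀ (X : A) (i : κ),
      (j X) i = (X : K →L[ℂ] K) (Ω i) :=
    ⟨{ toFun := fun X => WithLp.toLp 2 fun i => (X : K →L[ℂ] K) (Ω i)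
       map_add' := fun X Y => rfl
       map_smul' := fun c X => rfl }, fun X i => rfl⟩
  have hjn : ∀ X : A, ‖j X‖ ^ 2 = ∑ i, ‖(X : K →L[ℂ] K) (Ω i)‖ ^ 2 := fun X => by
    rw [PiLp.norm_sq_eq_of_L2]
    exact Finset.sum_congr rfl fun i _ => by rw [hj]
  obtain ⟨α, hα⟩ : ∃ α : G → (A →ₗ[ℂ] A), ∀ g (X : A),
      ((α g X : A) : K →L[ℂ] K) = π (ι g) * X * π (ι g)⁻¹ :=
    ⟨fun g => { toFun := fun X => ⟨π (ι g) * X * π (ι g)⁻¹, hconj _ _ X.2⟩
                map_add' := fun X Y => Subtype.ext (by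
                  change π (ι g) * ((X : K →L[ℂ] K) + Y) * π (ι g)⁻¹ = _
                  rw [mul_add, add_mul]; rfl)
                map_smul' := fun c X => Subtype.ext (by
                  change π (ι g) * (c • (X : K →L[ℂ] K)) * π (ι g)⁻¹ = _
                  rw [mul_smul_comm, smul_mul_assoc]; rfl) }, fun g X => rfl⟩
  have hTA : T ∈ A := (hA T).mpr ⟨hT, hl⟩
  have key := moore_pre hS j α (fun X => Subtype.ext (by
      rw [hα, map_one, map_one, inv_one, map_one, one_mul, mul_one]))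
    (fun g h X => Subtype.ext (by
      rw [hα, hα, hα, map_mul, mul_inv_rev, map_mul, map_mul]
      simp only [mul_assoc]))
    (fun g X => by
      have h1 := htv _ ((hA _).mp (hadj X X.2)) (ι g)⁻¹
      have h2 : ∑ i, ‖(X : K →L[ℂ] K) (π (ι g)⁻¹ (Ω i))‖ ^ 2 =
          ∑ i, ‖(X : K →L[ℂ] K) (Ω i)‖ ^ 2 := by
        have e : ∀ x : K, ⟪x, (adjoint (X : K →L[ℂ] K) * (X : K →L[ℂ] K)) x⟫_ℂ =
            ((‖(X : K →L[ℂ] K) x‖ ^ 2 : ℝ) : ℂ) := fun x => by
          rw [ContinuousLinearMap.mul_apply, adjoint_inner_right, inner_self_eq_norm_sq_to_K]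
          push_cast; rfl
        simp only [e] at h1
        exact_mod_cast h1
      have h3 : ‖j (α g X)‖ ^ 2 = ‖j X‖ ^ 2 := by
        rw [hjn, hjn, ← h2]
        refine Finset.sum_congr rfl fun i _ => ?_
        rw [hα]
        congr 1
        exact pi_nrmF hP _ _
      exact (pow_left_inj₀ (norm_nonneg _) (norm_nonneg _) two_ne_zero).1 h3)
    (fun X => by
      refine (PiLp.continuous_toLp 2 (fun _ : κ => K)).comp
        (f := fun g : G => fun i => (j (α g X)) i) ?_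
      refine continuous_pi fun i₀ => ?_
      simp only [hj, hα]
      obtain ⟨ω, hω⟩ : ∃ ω, ω = Ω i₀ := ⟨_, rfl⟩
      rw [← hω]
      have h1 : Continuous fun g : G => (X : K →L[ℂ] K) (π (ι g)⁻¹ ω) := by
        refine (X : K →L[ℂ] K).continuous.comp ?_
        have h2 := (hP.contP ω).comp (hι.comp continuous_inv)
        refine h2.congr fun g => ?_
        simp only [Function.comp_apply, map_inv]
      -- joint continuity
      rw [Metric.continuous_iff']
      intro g ε hε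
      obtain ⟨x, hx⟩ : ∃ x, x = (X : K →L[ℂ] K) (π (ι g)⁻¹ ω) := ⟨_, rfl⟩
      have h3 := (Metric.continuous_iff'.mp h1) g (ε / 2) (by positivity)
      have h4 := (Metric.continuous_iff'.mp ((hP.contP x).comp hι)) g (ε / 2) (by positivity)
      filter_upwards [h3, h4] with h a1 a2
      rw [← hx, dist_eq_norm] at a1
      simp only [Function.comp_apply, dist_eq_norm] at a2
      rw [dist_eq_norm]
      have e : (π (ι h) * (X : K →L[ℂ] K) * π (ι h)⁻¹) ω - (π (ι g) * (X : K →L[ℂ] K) *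
          π (ι g)⁻¹) ω = π (ι h) ((X : K →L[ℂ] K) (π (ι h)⁻¹ ω) - x) +
          (π (ι h) x - π (ι g) x) := by
        rw [map_sub, hx]
        change π (ι h) ((X : K →L[ℂ] K) (π (ι h)⁻¹ ω)) - π (ι g) ((X : K →L[ℂ] K)
          (π (ι g)⁻¹ ω)) = _
        abel
      rw [e]
      refine (norm_add_le _ _).trans_lt ?_
      rw [pi_nrmF hP]
      linarith) ⟨T, hTA⟩ (fun g hg => by
        refine PiLp.ext fun i => ?_
        rw [hj, hj, hα]
        congr 1
        change π (ι g) * T * π (ι g)⁻¹ = T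
        rw [← hc g hg, mul_assoc, hinv, mul_one]) g
  have key' : ∀ i, (π (ι g) * T * π (ι g)⁻¹) (Ω i) = T (Ω i) := fun i => by
    have h1 := congrArg (fun v : PiLp 2 (fun _ : κ => K) => v i) key
    simp only [hj, hα] at h1
    exact h1
  -- `Ω` is separating
  obtain ⟨D, hD⟩ : ∃ D, D = π (ι g) * T * π (ι g)⁻¹ - T := ⟨_, rfl⟩
  have hDA : D ∈ A := by rw [hD]; exact A.sub_mem (hconj _ _ hTA) hTA
  have hD0 : ∀ i, D (Ω i) = 0 := fun i => by
    rw [hD, sub_apply]
    exact sub_eq_zero.mpr (key' i)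
  have hD2 := (hA D).mp hDA
  have hDz : D = 0 := by
    refine hP.tr_zero D hD2.1 ?_
    refine Finset.sum_eq_zero fun i _ => ?_
    rw [TRN, ENNReal.tsum_eq_zero]
    intro γ
    have h1 : D (lam γ (Ω i)) = lam γ (D (Ω i)) :=
      congrArg (fun T : K →L[ℂ] K => T (Ω i)) (hD2.2 γ)
    rw [h1, hD0, map_zero, enorm_zero, zero_pow two_ne_zero]
  have h1 : π (ι g) * T * π (ι g)⁻¹ = T := by
    rw [hD] at hDz
    exact sub_eq_zero.mp hDz
  calc T * π (ι g) = (π (ι g) * T * π (ι g)⁻¹) * π (ι g) := by rw [h1]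
    _ = π (ι g) * T * (π (ι g)⁻¹ * π (ι g)) := by simp only [mul_assoc]
    _ = _ := by rw [hinv', mul_one]

/-- **(sc') in the letters of `H618.HMK.Sc`**: `Nb = ι₁ '' N₀`, `N₀` Moore in the factor `G`. -/
theorem sc_genF [IsTopologicalGroup G] (hP : PicF π lam W Ω) (htv : TVEF π lam W Ω) {S : Type}
    [Group S] [TopologicalSpace S] {ι₁ : G →* E} (hι : Continuous ι₁) {N₀ : Set G} (hM : Moore N₀)
    {θ₁ : S →* G} : Sc π lam W (ι₁.comp θ₁) (ι₁ '' N₀) := by
  intro T h1 h2 g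
  exact sc_facF hP htv hι hM (fun w hw => h2 w (Or.inl hw)) h1
    (fun n hn => h2 _ (Or.inr ⟨ι₁ n, Or.inl ⟨n, hn, rfl⟩, rfl⟩)) (θ₁ g)

end sc

end Vale.Agent.P092.H34.HMK
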